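import Vale.Agent.P183NC.NR
import Vale.Agent.P183CF.CB3

/-!
Ring toolkit for form spaces: definitions.
-/

namespace Vale.Agent.P183NK

namespace FS

variable {p : ℕ} [Fact p.Prime] {V : Type} [AddCommGroup V] [Module (ZMod p) V] (S : FS p V)

/-- `e` is an identity element of `J`. -/
structure Un (J : S.NR) (e : S.E) : Prop where
  mem : e ∈ J
  left : ∀ x ∈ J, e * x = x
  right : ∀ x ∈ J, x * e = x

/-- `J` is semiprime (for finite rings with identity: semisimple). -/
def SP (J : S.NR) : Prop := ∀ x ∈ J, (∀ y ∈ J, x * y * x = 0) → x = 0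

/-- Scalars without the condition on `q`. -/
structure PSc (D : S.NR) (e : S.E) : Prop extends S.Loc D e where
  comm : ∀ x ∈ D, ∀ y ∈ D, x * y = y * x
  red : ∀ x ∈ D, x * x = 0 → x = 0
  inv : ∀ x ∈ D, S.st x = x → x ≠ 0 → ∃ y ∈ D, x * y = e

/-- The minimal symmetric central idempotents of `J`. -/
def comps (J : S.NR) (e : S.E) : Set S.E :=
  {w | w ∈ S.ctr J e ∧ S.st w = w ∧ w * w = w ∧ w ≠ 0 ∧
    ∀ f ∈ S.ctr J e, S.st f = f → f * f = f → f * w = 0 ∨ f * w = w}

/-- A system of matrix units with sum `e`. -/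
structure MU0 (e : S.E) {ι : Type} [Fintype ι] [DecidableEq ι] (u : ι → ι → S.E) : Prop where
  mul : ∀ i j k l, u i j * u k l = if j = k then u i l else 0
  sum : ∑ i, u i i = e

/-- A system of matrix units that spans `J` over its centre. -/
structure MU (J : S.NR) (e : S.E) {ι : Type} [Fintype ι] [DecidableEq ι] (u : ι → ι → S.E) :
    Prop extends S.MU0 e u where
  mem : ∀ i j, u i j ∈ J
  span : ∀ x ∈ J, ∃ z : ι → ι → S.E, (∀ i j, z i j ∈ S.ctr J e) ∧
    x = ∑ i, ∑ j, z i j * u i j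

/-- The coefficients of `x` with respect to matrix units. -/
def coef {ι : Type} [Fintype ι] (u : ι → ι → S.E) (x : S.E) (i j : ι) : S.E :=
  ∑ k, u k i * x * u j k

/-- `η` is an idempotent of `D` such that `D η` is a field. -/
structure Prim (D : S.NR) (η : S.E) : Prop where
  mem : η ∈ D
  idem : η * η = η
  ne : η ≠ 0
  inv : ∀ z ∈ D, z * η ≠ 0 → ∃ y ∈ D, y * z * η = η

variable {S}

theorem Loc.un {J : S.NR} {e : S.E} (h : S.Loc J e) : S.Un J e := ⟨h.mem, h.left, h.right⟩

theorem Scal.psc {D : S.NR} {e : S.E} (h : S.Scal D e) : S.PSc D e :=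
  ⟨h.toLoc, h.comm, h.red, h.inv⟩

end FS

end Vale.Agent.P183NK
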