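import Vale.Agent.P183RT.RT5

/-!
Ring toolkit for form spaces: all statements of the skeleton, proved.
-/
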