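import Vale.Agent.P183RT.Defs
import Mathlib.RingTheory.Artinian.Ring
import Mathlib.RingTheory.SimpleModule.Basic

/-!
Ring toolkit, part 1: semisimple rings, complete reducibility, double centraliser.
-/

namespace Vale.Agent.P183NK

open Subgroup Vale.Agent.P183A

theorem semisimple_of_semiprime (R : Type) [Ring R] [Finite R]
    (h : ∀ x : R, (∀ y, x * y * x = 0) → x = 0) : IsSemisimpleRing R := by
  rw [IsArtinianRing.isSemisimpleRing_iff_jacobson]
  obtain ⟨n, hn⟩ : IsNilpotent (Ring.jacobson R) := IsSemiprimaryRing.isNilpotent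
  have key : ∀ k, Ring.jacobson R ^ (k + 1) = ⊥ → Ring.jacobson R = ⊥ := by
    intro k
    induction k with
    | zero => intro h0; rwa [zero_add, Submodule.pow_one] at h0
    | succ k ih =>
      intro h0
      refine ih (eq_bot_iff.2 fun x hx => h x fun y => ?_)
      have h1 := Ideal.mul_mem_mul hx (Ideal.mul_mem_left _ y hx)
      rw [← Ideal.IsTwoSided.pow_add] at h1
      have h2 := Ideal.pow_le_pow_right (I := Ring.jacobson R) (m := k + 1 + 1)
        (n := k + 1 + (k + 1)) (by omega) h1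
      rw [h0] at h2
      rw [mul_assoc]
      exact h2
  exact key n (eq_bot_iff.2 ((Ideal.pow_le_pow_right (Nat.le_succ n)).trans hn.le))

namespace FS

variable {p : ℕ} [Fact p.Prime] {V : Type} [AddCommGroup V] [Module (ZMod p) V] {S : FS p V}
  {J J' R D P Z : S.NR} {e e' w η x : S.E}

theorem Un.idem (h : S.Un J e) : e * e = e := h.left e h.mem

theorem Un.cent (h : S.Un J e) : S.Un (S.cent J e) e :=
  ⟨⟨h.idem, h.idem, fun d hd => by rw [h.left d hd, h.right d hd]⟩, fun _ hx => hx.1,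
    fun _ hx => hx.2.1⟩

theorem Un.ctr (h : S.Un J e) : S.Un (S.ctr J e) e :=
  ⟨⟨h.mem, h.cent.mem⟩, fun x hx => h.left x hx.1, fun x hx => h.right x hx.1⟩

theorem Un.le_cent_cent (h : S.Un J e) : J ≤ S.cent (S.cent J e) e :=
  fun x hx => ⟨h.left x hx, h.right x hx, fun _ hd => (hd.2.2 x hx).symm⟩

theorem un_cor (hw : w ∈ J) (hi : w * w = w) : S.Un (S.cor J w) w :=
  ⟨mem_cor.2 ⟨hw, hi, hi⟩, fun _ hx => (mem_cor.1 hx).2.1, fun _ hx => (mem_cor.1 hx).2.2⟩

theorem sand_mem_cor (hw : w ∈ J) (hi : w * w = w) (hx : x ∈ J) : w * x * w ∈ S.cor J w :=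
  mem_cor.2 ⟨mul_mem (mul_mem hw hx) hw, by rw [← mul_assoc, ← mul_assoc, hi], by
    rw [mul_assoc, hi]⟩

theorem mem_ctr_of (h : S.Un J e) (hx : x ∈ J) (hc : ∀ y ∈ J, x * y = y * x) : x ∈ S.ctr J e :=
  ⟨hx, h.left x hx, h.right x hx, hc⟩

theorem ctr_comm (hx : x ∈ S.ctr J e) {y : S.E} (hy : y ∈ J) : x * y = y * x := hx.2.2.2 y hy

/-- `J` as a ring with identity `e`. -/
def UR (_h : S.Un J e) : Type := J

instance (h : S.Un J e) : Ring (UR h) :=
  { (inferInstance : NonUnitalRing J) with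
    one := ⟨e, h.mem⟩
    one_mul := fun x => Subtype.ext (h.left x.1 x.2)
    mul_one := fun x => Subtype.ext (h.right x.1 x.2) }

/-- The underlying endomorphism. -/
def UR.val {h : S.Un J e} (x : UR h) : S.E := Subtype.val (p := fun y => y ∈ J) x

/-- The element of `UR h` given by an element of `J`. -/
def UR.mk (h : S.Un J e) (x : S.E) (hx : x ∈ J) : UR h := (⟨x, hx⟩ : J)

theorem UR.mem {h : S.Un J e} (x : UR h) : x.val ∈ J := Subtype.property (p := fun y => y ∈ J) x
@[simp] theorem UR.val_mk (h : S.Un J e) (x : S.E) (hx : x ∈ J) : (UR.mk h x hx).val = x := rfl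
@[simp] theorem UR.val_one (h : S.Un J e) : (1 : UR h).val = e := rfl
@[simp] theorem UR.val_zero (h : S.Un J e) : (0 : UR h).val = 0 := rfl
@[simp] theorem UR.val_mul {h : S.Un J e} (x y : UR h) : (x * y).val = x.val * y.val := rfl
@[simp] theorem UR.val_add {h : S.Un J e} (x y : UR h) : (x + y).val = x.val + y.val := rfl
@[simp] theorem UR.val_sub {h : S.Un J e} (x y : UR h) : (x - y).val = x.val - y.val := rfl
theorem UR.ext {h : S.Un J e} {x y : UR h} (hxy : x.val = y.val) : x = y := Subtype.ext hxy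

/-- The underlying endomorphism, as an additive map. -/
def UR.valA (h : S.Un J e) : UR h →+ S.E := ⟨⟨UR.val, rfl⟩, fun _ _ => rfl⟩

@[simp] theorem UR.val_sum {h : S.Un J e} {ι : Type} (s : Finset ι) (f : ι → UR h) :
    (∑ i ∈ s, f i).val = ∑ i ∈ s, (f i).val := map_sum (UR.valA h) f s

instance [Finite V] (h : S.Un J e) : Finite (UR h) := (inferInstance : Finite J)

/-- The module `e V`. -/
def UM (_h : S.Un J e) : Type := S.im e

instance (h : S.Un J e) : AddCommGroup (UM h) := (inferInstance : AddCommGroup (S.im e))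

/-- The underlying vector. -/
def UM.val {h : S.Un J e} (v : UM h) : V := Subtype.val (p := fun y => y ∈ S.im e) v

theorem UM.fix {h : S.Un J e} (v : UM h) : e v.val = v.val :=
  (mem_range_idem h.idem).1 (Subtype.property (p := fun y => y ∈ S.im e) v)

/-- The projection to `e V`. -/
def UM.pr (h : S.Un J e) : V →+ UM h :=
  AddMonoidHom.mk' (fun v => (⟨e v, v, rfl⟩ : S.im e)) fun a b => Subtype.ext (map_add e a b)

theorem UM.ext {h : S.Un J e} {x y : UM h} (hxy : x.val = y.val) : x = y := Subtype.ext hxy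
@[simp] theorem UM.val_pr (h : S.Un J e) (v : V) : (UM.pr h v).val = e v := rfl
@[simp] theorem UM.val_add {h : S.Un J e} (x y : UM h) : (x + y).val = x.val + y.val := rfl
@[simp] theorem UM.val_zero (h : S.Un J e) : (0 : UM h).val = 0 := rfl
@[simp] theorem UM.pr_val {h : S.Un J e} (v : UM h) : UM.pr h v.val = v := UM.ext v.fix

instance (h : S.Un J e) : Module (UR h) (UM h) where
  smul x v := UM.pr h (x.val v.val)
  one_smul v := UM.ext (by
    show e (e v.val) = v.val
    rw [v.fix, v.fix])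
  mul_smul x y v := UM.ext (by
    show e (x.val (y.val v.val)) = e (x.val (e (y.val v.val)))
    rw [← Module.End.mul_apply e y.val, h.left _ y.mem])
  smul_zero x := UM.ext (by
    show e (x.val 0) = 0
    simp)
  smul_add x v w := UM.ext (by
    show e (x.val (v.val + w.val)) = e (x.val v.val) + e (x.val w.val)
    simp)
  add_smul x y v := UM.ext (by
    show e ((x.val + y.val) v.val) = e (x.val v.val) + e (y.val v.val)
    simp)
  zero_smul v := UM.ext (by
    show e ((0 : S.E) v.val) = 0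
    simp)

@[simp] theorem UM.val_smul {h : S.Un J e} (x : UR h) (v : UM h) : (x • v).val = x.val v.val := by
  show e (x.val v.val) = _
  rw [← Module.End.mul_apply, h.left _ x.mem]

instance [Finite V] (h : S.Un J e) : Finite (UM h) := (inferInstance : Finite (S.im e))

/-- An additive endomorphism of `e V` as an endomorphism of `V`. -/
def UM.ex (h : S.Un J e) (φ : UM h →+ UM h) : S.E :=
  (AddMonoidHom.mk' (fun v => (φ (UM.pr h v)).val) fun a b => by simp).toZModLinearMap p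

@[simp] theorem UM.ex_apply (h : S.Un J e) (φ : UM h →+ UM h) (v : V) :
    UM.ex h φ v = (φ (UM.pr h v)).val := rfl

theorem UM.pr_e (h : S.Un J e) (v : V) : UM.pr h (e v) = UM.pr h v :=
  UM.ext (idem_app h.idem v)

theorem UM.ex_mem (h : S.Un J e) (φ : UM h →ₗ[UR h] UM h) :
    UM.ex h φ.toAddMonoidHom ∈ S.cent J e := by
  refine ⟨LinearMap.ext fun v => UM.fix _, LinearMap.ext fun v => ?_,
    fun d hd => LinearMap.ext fun v => ?_⟩
  · simp [UM.pr_e]
  · have : UM.pr h (d v) = UR.mk h d hd • UM.pr h v := UM.ext (by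
      rw [UM.val_smul, UM.val_pr, UM.val_pr, UR.val_mk, ← Module.End.mul_apply,
        ← Module.End.mul_apply, h.left d hd, h.right d hd])
    simp [this]

/-- An element of the centraliser as an endomorphism of the module. -/
def UM.res (h : S.Un J e) (x : S.E) (hx : x ∈ S.cent J e) : UM h →ₗ[UR h] UM h where
  toFun v := UM.pr h (x v.val)
  map_add' a b := by simp
  map_smul' d v := UM.ext (by
    simp only [UM.val_smul, UM.val_pr, RingHom.id_apply, ← Module.End.mul_apply]
    rw [← mul_assoc, hx.1, hx.2.2 _ d.mem])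

theorem UM.res_val (h : S.Un J e) (hx : x ∈ S.cent J e) (v : UM h) :
    (UM.res h x hx v).val = x v.val := by
  show e (x v.val) = _
  rw [← Module.End.mul_apply, hx.1]

theorem SP.cor (h : S.SP J) (hw : w ∈ J) (hi : w * w = w) : S.SP (S.cor J w) := fun x hx h0 =>
  h x hx.1 fun y hy => by
    have := h0 _ (sand_mem_cor hw hi hy)
    rwa [← mul_assoc, ← mul_assoc, (mem_cor.1 hx).2.2, mul_assoc _ w, (mem_cor.1 hx).2.1] at this

theorem sp_of_red (hc : ∀ x ∈ P, ∀ y ∈ P, x * y = y * x) (hr : ∀ x ∈ P, x * x = 0 → x = 0) :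
    S.SP P := fun x hx h0 => by
  have _ := hc
  refine hr x hx (hr _ (mul_mem hx hx) ?_)
  rw [← mul_assoc, h0 x hx, zero_mul]

variable [Finite V]

theorem SP.semisimple (hu : S.Un J e) (h : S.SP J) : IsSemisimpleRing (UR hu) :=
  semisimple_of_semiprime _ fun x hx => UR.ext (h _ x.mem fun y hy =>
    congrArg UR.val (hx (UR.mk hu y hy)))

theorem SP.exists_idem (hu : S.Un J e) (h : S.SP J) (hR : R ≤ J)
    (hl : ∀ x ∈ R, ∀ y ∈ J, y * x ∈ R) : ∃ f ∈ R, f * f = f ∧ ∀ x ∈ R, x * f = x := by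
  have := h.semisimple hu
  let I : Ideal (UR hu) :=
    { carrier := {x | x.val ∈ R}
      add_mem' := fun ha hb => R.add_mem ha hb
      zero_mem' := R.zero_mem
      smul_mem' := fun c x hx => hl _ hx _ c.mem }
  obtain ⟨f, hf, hI⟩ := IsSemisimpleRing.ideal_eq_span_idempotent I
  have h1 : f ∈ I := hI ▸ Ideal.subset_span rfl
  refine ⟨f.val, h1, congrArg UR.val hf.eq, fun x hx => ?_⟩
  have h2 : UR.mk hu x (hR hx) ∈ I := hx
  rw [hI, Ideal.mem_span_singleton'] at h2
  obtain ⟨a, ha⟩ := h2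
  have h3 : UR.mk hu x (hR hx) * f = UR.mk hu x (hR hx) := by rw [← ha, mul_assoc, hf.eq]
  exact congrArg UR.val h3

theorem SP.ideal (hu : S.Un J e) (h : S.SP J) (hR : R ≤ J)
    (hi : ∀ x ∈ R, ∀ y ∈ J, x * y ∈ R ∧ y * x ∈ R) :
    ∃ f ∈ R, f ∈ S.ctr J e ∧ f * f = f ∧ ∀ x ∈ R, f * x = x := by
  obtain ⟨f, hf, h1, h2⟩ := h.exists_idem hu hR fun x hx y hy => (hi x hx y hy).2
  have hc : ∀ y ∈ J, f * y = y * f := fun y hy => by
    have h3 : y * f - f * y * f = 0 := by
      have hm : y * f - f * y * f ∈ J :=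
        sub_mem (mul_mem hy (hR hf)) (mul_mem (mul_mem (hR hf) hy) (hR hf))
      refine h _ hm fun z hz => ?_
      have h4 := h2 _ (hi f hf z hz).1
      have h5 : f * (y * f - f * y * f) = 0 := by
        rw [mul_sub, ← mul_assoc, ← mul_assoc, ← mul_assoc, h1, sub_self]
      calc _ = (y - f * y) * (f * z) * (y * f - f * y * f) := by noncomm_ring
        _ = (y - f * y) * (f * z) * (f * (y * f - f * y * f)) := by
          conv_lhs => rw [← h4]
          noncomm_ring
        _ = 0 := by rw [h5, mul_zero]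
    rw [h2 _ (hi f hf y hy).1] at h3
    exact (sub_eq_zero.1 h3).symm
  exact ⟨f, hf, mem_ctr_of hu (hR hf) hc, h1, fun x hx => by rw [hc x (hR hx), h2 x hx]⟩

theorem SP.exists_proj (hu : S.Un J e) (h : S.SP J) {U : AddSubgroup V}
    (hU : ∀ v ∈ U, e v = v) (hJ : ∀ x ∈ J, ∀ v ∈ U, x v ∈ U) :
    ∃ f ∈ S.cent J e, f * f = f ∧ ∀ v, v ∈ U ↔ f v = v := by
  have := h.semisimple hu
  let N : Submodule (UR hu) (UM hu) :=
    { carrier := {v | v.val ∈ U}
      add_mem' := fun ha hb => U.add_mem ha hb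
      zero_mem' := U.zero_mem
      smul_mem' := fun c v hv => by
        show (c • v).val ∈ U
        rw [UM.val_smul]
        exact hJ _ c.mem _ hv }
  obtain ⟨φ, hφ⟩ := IsSemisimpleModule.extension_property N.subtype N.injective_subtype
    (LinearMap.id : N →ₗ[UR hu] N)
  have h1 : ∀ v, UM.ex hu (N.subtype ∘ₗ φ).toAddMonoidHom v ∈ U := fun v => (φ (UM.pr hu v)).2
  have h2 : ∀ v ∈ U, UM.ex hu (N.subtype ∘ₗ φ).toAddMonoidHom v = v := fun v hv => by
    have h3 : UM.pr hu v ∈ N := show e v ∈ U by rwa [hU v hv]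
    have h4 : φ (UM.pr hu v) = ⟨_, h3⟩ := LinearMap.congr_fun hφ ⟨_, h3⟩
    show (φ (UM.pr hu v)).1.val = v
    rw [h4]
    exact hU v hv
  exact ⟨_, UM.ex_mem hu _, LinearMap.ext fun v => h2 _ (h1 v), fun v =>
    ⟨h2 v, fun hv => hv ▸ h1 v⟩⟩

theorem SP.regular (hu : S.Un J e) (h : S.SP J) (hx : x ∈ J) : ∃ y ∈ J, x * y * x = x := by
  let L : S.NR :=
    { carrier := {z | ∃ y ∈ J, z = y * x}
      add_mem' := by
        rintro _ _ ⟨a, ha, rfl⟩ ⟨b, hb, rfl⟩
        exact ⟨a + b, add_mem ha hb, (add_mul _ _ _).symm⟩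
      zero_mem' := ⟨0, zero_mem _, (zero_mul _).symm⟩
      mul_mem' := by
        rintro _ _ ⟨a, ha, rfl⟩ ⟨b, hb, rfl⟩
        exact ⟨a * x * b, mul_mem (mul_mem ha hx) hb, (mul_assoc _ _ _).symm⟩
      neg_mem' := by
        rintro _ ⟨a, ha, rfl⟩
        exact ⟨-a, neg_mem ha, (neg_mul _ _).symm⟩ }
  obtain ⟨_, ⟨y, hy, rfl⟩, -, h2⟩ := h.exists_idem hu (R := L)
    (by rintro _ ⟨a, ha, rfl⟩; exact mul_mem ha hx)
    (by rintro _ ⟨a, ha, rfl⟩ b hb; exact ⟨b * a, mul_mem hb ha, (mul_assoc _ _ _).symm⟩)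
  exact ⟨y, hy, by rw [mul_assoc]; exact h2 x ⟨e, hu.mem, (hu.left x hx).symm⟩⟩

theorem SP.cent (hu : S.Un J e) (h : S.SP J) : S.SP (S.cent J e) := by
  have := h.semisimple hu
  intro x hx h0
  obtain ⟨φ, hφ⟩ := IsSemisimpleModule.extension_property (LinearMap.range (UM.res hu x hx)).subtype
    (Submodule.injective_subtype _) (LinearMap.id : _ →ₗ[UR hu] _)
  obtain ⟨ψ, hψ⟩ := IsSemisimpleModule.lifting_property (UM.res hu x hx).rangeRestrict
    (LinearMap.surjective_rangeRestrict _) φ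
  rw [← h0 _ (UM.ex_mem hu ψ)]
  refine LinearMap.ext fun v => ?_
  have h1 : UM.pr hu (x v) = UM.res hu x hx (UM.pr hu v) := UM.ext (by
    rw [UM.res_val, UM.val_pr, UM.val_pr, ← Module.End.mul_apply, ← Module.End.mul_apply, hx.1,
      hx.2.1])
  have h2 := congrArg (fun t => t.1.val) (LinearMap.congr_fun hψ (UM.pr hu (x v)))
  have h3 := congrArg (fun t => t.1.val) (LinearMap.congr_fun hφ ⟨_, UM.pr hu v, h1.symm⟩)
  simp only [LinearMap.comp_apply, LinearMap.id_apply, Submodule.subtype_apply,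
    LinearMap.rangeRestrict, LinearMap.codRestrict_apply, UM.res_val] at h2 h3
  show x v = x (ψ (UM.pr hu (x v))).val
  rw [h2, h3, UM.val_pr, ← Module.End.mul_apply, hx.1]

theorem SP.cent_cent (hu : S.Un J e) (h : S.SP J) : S.cent (S.cent J e) e = J := by
  have := h.semisimple hu
  refine le_antisymm (fun x hx => ?_) hu.le_cent_cent
  let f : Module.End (Module.End (UR hu) (UM hu)) (UM hu) :=
    { toFun := fun v => UM.pr hu (x v.val)
      map_add' := fun a b => by simp
      map_smul' := fun φ v => UM.ext (by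
        have h1 := LinearMap.congr_fun (hx.2.2 _ (UM.ex_mem hu φ)) v.val
        simp only [Module.End.mul_apply, UM.ex_apply, UM.pr_val] at h1
        simp only [Module.End.smul_def, RingHom.id_apply, UM.val_pr]
        exact (congrArg e h1).trans (UM.fix _)) }
  have := Fintype.ofFinite (UM hu)
  obtain ⟨r, hr⟩ := jacobson_density f Finset.univ
  have h1 : x = r.val := LinearMap.ext fun v => by
    have h2 := congrArg UM.val (hr (UM.pr hu v) (Finset.mem_univ _))
    rw [UM.val_smul, UM.val_pr, ← Module.End.mul_apply, hu.right _ r.mem] at h2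
    rw [← h2]
    show x v = e (x (e v))
    rw [← Module.End.mul_apply, ← Module.End.mul_apply, hx.1, hx.2.1]
  exact h1 ▸ r.mem

omit [Finite V] in
theorem kill_of_min {M : AddSubgroup V} (hx : x ∈ J) (h0 : ∀ y ∈ J, x * y * x = 0)
    (hM : ∀ y ∈ J, ∀ v ∈ M, y v ∈ M)
    (hmin : ∀ K ≤ M, (∀ y ∈ J, ∀ v ∈ K, y v ∈ K) → K = ⊥ ∨ K = M) : ∀ v ∈ M, x v = 0 := by
  let K : AddSubgroup V :=
    { carrier := {v | v ∈ M ∧ x v = 0 ∧ ∀ y ∈ J, x (y v) = 0}
      add_mem' := fun ha hb => ⟨add_mem ha.1 hb.1, by rw [map_add, ha.2.1, hb.2.1, add_zero],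
        fun y hy => by rw [map_add, map_add, ha.2.2 y hy, hb.2.2 y hy, add_zero]⟩
      zero_mem' := ⟨zero_mem _, map_zero _, fun y _ => by simp⟩
      neg_mem' := fun ha => ⟨neg_mem ha.1, by rw [map_neg, ha.2.1, neg_zero],
        fun y hy => by rw [map_neg, map_neg, ha.2.2 y hy, neg_zero]⟩ }
  have h1 : ∀ y ∈ J, ∀ v, x (y (x v)) = 0 := fun y hy v => LinearMap.congr_fun (h0 y hy) v
  rcases hmin K (fun _ hv => hv.1) (fun y hy v hv => ⟨hM y hy v hv.1, hv.2.2 y hy, fun z hz =>
    hv.2.2 _ (mul_mem hz hy)⟩) with hK | hK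
  · intro v hv
    have h2 : x (x v) ∈ K := ⟨hM x hx _ (hM x hx v hv), h1 x hx v, fun y hy => h1 y hy _⟩
    rw [hK, AddSubgroup.mem_bot] at h2
    have h3 : x v ∈ K := ⟨hM x hx v hv, h2, fun y hy => h1 y hy v⟩
    rwa [hK, AddSubgroup.mem_bot] at h3
  · exact fun v hv => (hK.ge hv).2.1

theorem Irr.sp {a : Subgroup S.Eˣ} (h : S.Irr Z a) (hJ : J ≤ S.cent Z 1) (hn : S.NmR a J) :
    S.SP J := by
  let W : AddSubgroup V :=
    { carrier := {v | ∀ x ∈ J, (∀ y ∈ J, x * y * x = 0) → x v = 0}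
      add_mem' := fun ha hb x hx h0 => by rw [map_add, ha x hx h0, hb x hx h0, add_zero]
      zero_mem' := fun x _ _ => map_zero _
      neg_mem' := fun ha x hx h0 => by rw [map_neg, ha x hx h0, neg_zero] }
  obtain ⟨z, hz, hzz, hW⟩ := h W (fun z hz v hv x hx h0 => by
      rw [← Module.End.mul_apply, (hJ hx).2.2 z hz, Module.End.mul_apply, hv x hx h0, map_zero])
    fun g hg v hv x hx h0 => by
      have h1 := hv _ (hn g⁻¹ (inv_mem hg) x hx) fun y hy => by
        have := congrArg (fun t => g⁻¹.1 * t * g.1) (h0 _ (hn g hg y hy))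
        simpa [mul_assoc] using this
      have := congrArg g.1 h1
      simpa using this
  have hker : S.ke z = ⊥ := by
    by_contra hne
    obtain ⟨M, ⟨hM0, hM1, hM2⟩, hmin⟩ := exists_minimal_of_wellFoundedLT
      (fun M : AddSubgroup V => M ≠ ⊥ ∧ M ≤ S.ke z ∧ ∀ y ∈ J, ∀ v ∈ M, y v ∈ M)
      ⟨S.ke z, hne, le_rfl, fun y hy v hv => by
        rw [mem_ke, ← Module.End.mul_apply, ← (hJ hy).2.2 z hz, Module.End.mul_apply,
          show z v = 0 from hv, map_zero]⟩
    refine hM0 (eq_bot_iff.2 fun v hv => ?_)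
    have h1 : v ∈ W := fun x hx h0 => kill_of_min hx h0 hM2 (fun K hK h2 =>
      or_iff_not_imp_left.2 fun h3 => le_antisymm hK (hmin ⟨h3, hK.trans hM1, h2⟩ hK)) v hv
    rw [AddSubgroup.mem_bot, ← (hW v).1 h1]
    exact hM1 hv
  intro x hx h0
  refine LinearMap.ext fun v => ?_
  have hinj : Function.Injective z := (injective_iff_map_eq_zero z).2 fun v hv =>
    AddSubgroup.mem_bot.1 (hker ▸ (show v ∈ S.ke z from hv))
  exact (hW v).2 (hinj (idem_app hzz v)) x hx h0

end FS

end Vale.Agent.P183NK
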