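import Vale.Agent.P183RT.RT1

/-!
Ring toolkit, part 2: idempotents, components, simple rings with involution, scalars.
-/

namespace Vale.Agent.P183NK

open Subgroup Vale.Agent.P183A

/-- A finite Boolean algebra of idempotents with greatest element `e`. -/
structure Boo {E : Type} [Ring E] (B : Set E) (e : E) : Prop where
  fin : B.Finite
  top : e ∈ B
  idem : ∀ f ∈ B, f * f = f
  comm : ∀ f ∈ B, ∀ g ∈ B, f * g = g * f
  mul : ∀ f ∈ B, ∀ g ∈ B, f * g ∈ B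
  sub : ∀ f ∈ B, e - f ∈ B
  one : ∀ f ∈ B, e * f = f

/-- The atoms. -/
def atoms {E : Type} [Ring E] (B : Set E) : Set E :=
  {w | w ∈ B ∧ w ≠ 0 ∧ ∀ f ∈ B, f * w = 0 ∨ f * w = w}

namespace Boo

variable {E : Type} [Ring E] {B : Set E} {e : E} (h : Boo B e)
include h

theorem orth {w w' : E} (hw : w ∈ atoms B) (hw' : w' ∈ atoms B) (hne : w ≠ w') : w * w' = 0 := by
  rcases hw'.2.2 w hw.1 with h1 | h1
  · exact h1
  · rcases hw.2.2 w' hw'.1 with h2 | h2
    · rw [h.comm w hw.1 w' hw'.1, h2]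
    · exact absurd (by rw [← h2, ← h.comm w hw.1 w' hw'.1, h1]) hne

theorem exists_atom {f : E} (hf : f ∈ B) (h0 : f ≠ 0) : ∃ w ∈ atoms B, f * w = w := by
  obtain ⟨w, hw, hmin⟩ := Set.exists_min_image {w | w ∈ B ∧ w ≠ 0 ∧ f * w = w}
    (fun w => {g | g ∈ B ∧ w * g = g}.ncard) (h.fin.subset fun _ hw => hw.1)
    ⟨f, hf, h0, h.idem f hf⟩
  refine ⟨w, ⟨hw.1, hw.2.1, fun g hg => or_iff_not_imp_left.2 fun h1 => ?_⟩, hw.2.2⟩
  have h2 := hmin (g * w) ⟨h.mul g hg w hw.1, h1, by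
    rw [← mul_assoc, h.comm f hf g hg, mul_assoc, hw.2.2]⟩
  have h3 : {k | k ∈ B ∧ g * w * k = k} = {k | k ∈ B ∧ w * k = k} :=
    Set.eq_of_subset_of_ncard_le (fun k hk => ⟨hk.1, by
      rw [← hk.2, h.comm g hg w hw.1, ← mul_assoc, ← mul_assoc, h.idem w hw.1]⟩) h2
      (h.fin.subset fun _ hk => hk.1)
  have h4 : w ∈ {k | k ∈ B ∧ g * w * k = k} := h3 ▸ ⟨hw.1, h.idem w hw.1⟩
  have h5 := h4.2
  rwa [mul_assoc, h.idem w hw.1] at h5

theorem sub_sum (W : Finset E) (hW : ∀ w ∈ W, w ∈ atoms B) : e - ∑ w ∈ W, w ∈ B := by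
  classical
  induction W using Finset.induction_on with
  | empty => simpa using h.top
  | insert a W ha ih =>
    have h1 := hW a (Finset.mem_insert_self _ _)
    have h2 := fun w hw => hW w (Finset.mem_insert_of_mem hw)
    have h3 : (∑ w ∈ W, w) * a = 0 := by
      rw [Finset.sum_mul]
      exact Finset.sum_eq_zero fun w hw => h.orth (h2 w hw) h1 (ne_of_mem_of_not_mem hw ha)
    have h4 : (∑ w ∈ W, w) * e = ∑ w ∈ W, w := by
      rw [Finset.sum_mul]
      exact Finset.sum_congr rfl fun w hw => by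
        rw [h.comm w (h2 w hw).1 e h.top, h.one w (h2 w hw).1]
    have h5 := h.mul _ (ih h2) _ (h.sub a h1.1)
    rw [sub_mul, mul_sub, mul_sub, h3, h4, h.one e h.top, h.one a h1.1] at h5
    rw [Finset.sum_insert ha]
    convert h5 using 1
    abel

theorem sum_atoms : ∃ W : Finset E, (∀ w, w ∈ W ↔ w ∈ atoms B) ∧ ∑ w ∈ W, w = e := by
  have hfin : (atoms B).Finite := h.fin.subset fun _ hw => hw.1
  refine ⟨hfin.toFinset, fun w => hfin.mem_toFinset, ?_⟩
  have h1 := h.sub_sum hfin.toFinset fun w hw => hfin.mem_toFinset.1 hw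
  by_contra hne
  obtain ⟨w, hw, h2⟩ := h.exists_atom h1 (sub_ne_zero.2 (Ne.symm hne))
  rw [sub_mul, Finset.sum_mul, Finset.sum_eq_single w (fun a ha hne =>
    h.orth (hfin.mem_toFinset.1 ha) hw hne) (fun hn => absurd (hfin.mem_toFinset.2 hw) hn),
    h.one w hw.1, h.idem w hw.1, sub_self] at h2
  exact hw.2.1 h2.symm

theorem ncard_le {W : Finset E} (hW : ∀ w, w ∈ W ↔ w ∈ atoms B) (hs : ∑ w ∈ W, w = e) :
    B.ncard ≤ 2 ^ W.card := by
  classical
  rw [← Finset.card_powerset, ← Set.ncard_coe_finset]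
  refine Set.ncard_le_ncard_of_injOn (fun f => W.filter fun w => f * w = w)
    (fun f _ => Finset.mem_coe.2 (Finset.mem_powerset.2 (Finset.filter_subset _ _)))
    fun f hf g hg hfg => ?_
  have key : ∀ f ∈ B, f = ∑ w ∈ W.filter fun w => f * w = w, w := fun f hf => by
    conv_lhs => rw [← h.one f hf, h.comm e h.top f hf, ← hs, Finset.mul_sum]
    rw [Finset.sum_filter]
    refine Finset.sum_congr rfl fun w hw => ?_
    split_ifs with h1
    · exact h1
    · exact (((hW w).1 hw).2.2 f hf).resolve_right h1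
  rw [key f hf, key g hg]
  exact congrArg (fun s => ∑ w ∈ s, w) hfg

end Boo

namespace FS

variable {p : ℕ} [Fact p.Prime] {V : Type} [AddCommGroup V] [Module (ZMod p) V] {S : FS p V}
  {J J' R D P Z : S.NR} {e e' w η x : S.E} {m m' : ℕ}

/-- The largest symmetric ideal inside the set of all `y` with `l y = 0` for the maps `l` of a
family. -/
def ann (S : FS p V) (J : S.NR) (T : Set (S.E × S.E)) : S.NR where
  carrier := {y | y ∈ J ∧ ∀ t ∈ T, ∀ a ∈ J, ∀ b ∈ J, t.1 * a * y * b * t.2 = 0}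
  add_mem' := fun ha hb => ⟨add_mem ha.1 hb.1, fun t ht a h1 b h2 => by
    rw [mul_add, add_mul, add_mul, ha.2 t ht a h1 b h2, hb.2 t ht a h1 b h2, add_zero]⟩
  zero_mem' := ⟨zero_mem _, fun t _ a _ b _ => by simp⟩
  mul_mem' := fun {x y} ha hb => ⟨mul_mem ha.1 hb.1, fun t ht a h1 b h2 => by
    have := ha.2 t ht a h1 _ (mul_mem hb.1 h2)
    simpa only [mul_assoc] using this⟩
  neg_mem' := fun ha => ⟨neg_mem ha.1, fun t ht a h1 b h2 => by
    rw [mul_neg, neg_mul, neg_mul, ha.2 t ht a h1 b h2, neg_zero]⟩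

theorem Simp.ann_cases (h : S.Simp J e) (T : Set (S.E × S.E))
    (hT : ∀ t ∈ T, (S.st t.2, S.st t.1) ∈ T) : S.ann J T = ⊥ ∨ S.ann J T = J :=
  h.simple _ (fun _ hy => hy.1) (fun y hy => ⟨h.star y hy.1, fun t ht a h1 b h2 => by
      have := congrArg S.st (hy.2 _ (hT t ht) _ (h.star b h2) _ (h.star a h1))
      simpa only [st_mul, st_st, st_zero, mul_assoc] using this⟩)
    fun x hx y hy => ⟨⟨mul_mem hx.1 hy, fun t ht a h1 b h2 => by
      simpa only [mul_assoc] using hx.2 t ht a h1 _ (mul_mem hy h2)⟩,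
      ⟨mul_mem hy hx.1, fun t ht a h1 b h2 => by
      simpa only [mul_assoc] using hx.2 t ht _ (mul_mem h1 hy) b h2⟩⟩

theorem Simp.sp (h : S.Simp J e) : S.SP J := by
  intro x hx h0
  have h0' : ∀ y ∈ J, S.st x * y * S.st x = 0 := fun y hy => by
    simpa only [st_mul, st_st, st_zero, mul_assoc] using congrArg S.st (h0 _ (h.star y hy))
  rcases h.ann_cases {(x, e), (e, S.st x)} (by simp [h.symm]) with h1 | h1
  · have h2 : ∀ y ∈ J, x * y * S.st x = 0 := fun y hy => by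
      have : x * y * S.st x ∈ S.ann J {(x, e), (e, S.st x)} :=
        ⟨mul_mem (mul_mem hx hy) (h.star x hx), by
          rintro _ (rfl | rfl) a ha b hb
          · calc _ = x * a * x * (y * S.st x * b * e) := by simp only [mul_assoc]
              _ = 0 := by rw [h0 a ha, zero_mul]
          · calc _ = e * a * x * y * (S.st x * b * S.st x) := by simp only [mul_assoc]
              _ = 0 := by rw [h0' b hb, mul_zero]⟩
      rwa [h1, NonUnitalSubring.mem_bot] at this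
    have : S.st x ∈ S.ann J {(x, e), (e, S.st x)} := ⟨h.star x hx, by
      rintro _ (rfl | rfl) a ha b hb
      · rw [h2 a ha, zero_mul, zero_mul]
      · calc _ = e * a * (S.st x * b * S.st x) := by simp only [mul_assoc]
          _ = 0 := by rw [h0' b hb, mul_zero]⟩
    rwa [h1, NonUnitalSubring.mem_bot, st_eq_zero] at this
  · have := (h1.ge h.mem).2 (x, e) (Or.inl rfl) e h.mem e h.mem
    simpa only [h.right x hx] using this

theorem Simp.sym_idem (h : S.Simp J e) {f : S.E} (hf : f ∈ S.ctr J e) (hs : S.st f = f)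
    (hi : f * f = f) : f = 0 ∨ f = e := by
  rcases h.simple (S.cor J f) (cor_le _ _) (fun x hx => mem_cor.2 ⟨h.star x hx.1, by
      rw [← hs, ← st_mul, (mem_cor.1 hx).2.2], by rw [← hs, ← st_mul, (mem_cor.1 hx).2.1]⟩)
    (fun x hx y hy => ⟨mem_cor.2 ⟨mul_mem hx.1 hy, by rw [← mul_assoc, (mem_cor.1 hx).2.1], by
      rw [mul_assoc, ← ctr_comm hf hy, ← mul_assoc, (mem_cor.1 hx).2.2]⟩,
      mem_cor.2 ⟨mul_mem hy hx.1, by
        rw [← mul_assoc, ctr_comm hf hy, mul_assoc, (mem_cor.1 hx).2.1], by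
        rw [mul_assoc, (mem_cor.1 hx).2.2]⟩⟩) with h1 | h1
  · exact Or.inl (NonUnitalSubring.mem_bot.1 (h1 ▸ (un_cor hf.1 hi).mem))
  · exact Or.inr (by rw [← (mem_cor.1 (h1.ge h.mem)).2.1, h.right f hf.1])

theorem ctr_cor (hu : S.Un J e) (hw : w ∈ S.ctr J e) (hi : w * w = w) :
    S.ctr (S.cor J w) w = S.cor (S.ctr J e) w := by
  ext x
  constructor
  · rintro ⟨h1, h2⟩
    refine mem_cor.2 ⟨mem_ctr_of hu h1.1 fun y hy => ?_, h2.1, h2.2.1⟩
    have := h2.2.2 _ (sand_mem_cor hw.1 hi hy)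
    rwa [← mul_assoc, ← mul_assoc, h2.2.1, mul_assoc _ w x, h2.1, mul_assoc, ← ctr_comm hw hy,
      ← mul_assoc, h2.2.1, ctr_comm hw hy, mul_assoc, h2.1] at this
  · intro hx
    obtain ⟨h1, h2, h3⟩ := mem_cor.1 hx
    exact ⟨mem_cor.2 ⟨h1.1, h2, h3⟩, h2, h3, fun d hd => ctr_comm h1 hd.1⟩

theorem cent_cor (hu : S.Un J e) (hw : w ∈ S.ctr J e) (hi : w * w = w) :
    S.cent (S.cor J w) w = S.cor (S.cent J e) w := by
  ext x
  constructor
  · intro h2
    refine mem_cor.2 ⟨⟨by rw [← h2.1, ← mul_assoc, hu.left w hw.1],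
      by rw [← h2.2.1, mul_assoc, hu.right w hw.1], fun y hy => ?_⟩, h2.1, h2.2.1⟩
    have := h2.2.2 _ (sand_mem_cor hw.1 hi hy)
    rwa [← mul_assoc, ← mul_assoc, h2.2.1, mul_assoc _ w x, h2.1, mul_assoc, ← ctr_comm hw hy,
      ← mul_assoc, h2.2.1, ctr_comm hw hy, mul_assoc, h2.1] at this
  · intro hx
    obtain ⟨h1, h2, h3⟩ := mem_cor.1 hx
    exact ⟨h2, h3, fun d hd => h1.2.2 d hd.1⟩

theorem Simp.psc (h : S.Simp J e) : S.PSc (S.ctr J e) e := by
  have red : ∀ x ∈ S.ctr J e, x * x = 0 → x = 0 := fun x hx h0 =>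
    h.sp x hx.1 fun y hy => by rw [mul_assoc, ← ctr_comm hx hy, ← mul_assoc, h0, zero_mul]
  refine ⟨h.toLoc.ctr, fun x hx y hy => ctr_comm hx hy.1, red, fun x hx hs h0 => ?_⟩
  let I : S.NR :=
    { carrier := {z | ∃ y ∈ J, z = x * y}
      add_mem' := by
        rintro _ _ ⟨a, ha, rfl⟩ ⟨b, hb, rfl⟩
        exact ⟨a + b, add_mem ha hb, (mul_add _ _ _).symm⟩
      zero_mem' := ⟨0, zero_mem _, (mul_zero _).symm⟩
      mul_mem' := by
        rintro _ _ ⟨a, ha, rfl⟩ ⟨b, hb, rfl⟩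
        exact ⟨a * (x * b), mul_mem ha (mul_mem hx.1 hb), mul_assoc _ _ _⟩
      neg_mem' := by
        rintro _ ⟨a, ha, rfl⟩
        exact ⟨-a, neg_mem ha, (mul_neg _ _).symm⟩ }
  rcases h.simple I (by rintro _ ⟨a, ha, rfl⟩; exact mul_mem hx.1 ha)
    (by
      rintro _ ⟨a, ha, rfl⟩
      exact ⟨_, h.star a ha, by rw [st_mul, hs, ctr_comm hx (h.star a ha)]⟩)
    (by
      rintro _ ⟨a, ha, rfl⟩ y hy
      exact ⟨⟨_, mul_mem ha hy, mul_assoc _ _ _⟩, ⟨_, mul_mem hy ha, by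
        rw [← mul_assoc, ← ctr_comm hx hy, mul_assoc]⟩⟩) with h1 | h1
  · exact absurd (NonUnitalSubring.mem_bot.1 (h1 ▸ (⟨e, h.mem, (h.right x hx.1).symm⟩ : x ∈ I))) h0
  · obtain ⟨y, hy, h2⟩ : e ∈ I := h1.ge h.mem
    refine ⟨y, mem_ctr_of h.toLoc.un hy fun z hz => ?_, h2.symm⟩
    calc y * z = y * z * (x * y) := by rw [← h2, h.right _ (mul_mem hy hz)]
      _ = x * y * (z * y) := by
        rw [← mul_assoc, ← ctr_comm hx (mul_mem hy hz)]
        simp only [mul_assoc]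
      _ = z * y := by rw [← h2, h.left _ (mul_mem hz hy)]

theorem PSc.ctr_eq (h : S.PSc D e) : S.ctr D e = D :=
  le_antisymm inf_le_left fun x hx => mem_ctr_of h.toLoc.un hx (h.comm x hx)

theorem PSc.sp (h : S.PSc D e) : S.SP D := sp_of_red h.comm h.red

/-- a symmetric ideal that meets the scalars contains `e` -/
theorem PSc.mem_of_ideal (h : S.PSc D e) (hs : ∀ x ∈ R, S.st x ∈ R)
    (hi : ∀ x ∈ R, ∀ y ∈ D, x * y ∈ R) (hx : x ∈ R) (hD : x ∈ D) (h0 : x ≠ 0) : e ∈ R := by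
  have h1 := h.star x hD
  by_cases h2 : x * S.st x = 0
  · obtain ⟨y, hy, h3⟩ := h.inv (x + S.st x) (add_mem hD h1) (by rw [st_add, st_st, add_comm])
      fun h4 => h0 (h.red x hD (by
        have := congrArg (x * ·) h4
        simpa only [mul_add, h2, add_zero, mul_zero] using this))
    exact h3 ▸ hi _ (add_mem hx (hs x hx)) y hy
  · obtain ⟨y, hy, h3⟩ := h.inv _ (mul_mem hD h1) (by rw [st_mul, st_st]) h2
    exact h3 ▸ hi _ (hi x hx _ h1) y hy

theorem PSc.simp (h : S.PSc D e) : S.Simp D e ∧ S.ctr D e = D ∧ S.Deg D e 1 := by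
  refine ⟨⟨h.toLoc, fun R hR hs hi => or_iff_not_imp_left.2 fun h0 => ?_⟩, h.ctr_eq, by
    rw [Deg, h.ctr_eq, mul_one, pow_one]⟩
  obtain ⟨x, hx, h1⟩ : ∃ x ∈ R, x ≠ 0 := by
    by_contra hn
    push Not at hn
    exact h0 (eq_bot_iff.2 fun x hx => NonUnitalSubring.mem_bot.2 (hn x hx))
  have := h.mem_of_ideal hs (fun x hx y hy => (hi x hx y hy).1) hx (hR hx) h1
  exact le_antisymm hR fun y hy => h.left y hy ▸ (hi e this y hy).1

theorem PSc.exists_prim (h : S.PSc D e) : ∃ η, S.Prim D η ∧ S.Prim D (S.st η) ∧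
    (η = e ∨ (η + S.st η = e ∧ η * S.st η = 0)) := by
  by_cases hf : ∀ x ∈ D, x ≠ 0 → x * S.st x ≠ 0
  · have : S.Prim D e := ⟨h.mem, h.toLoc.idem, h.ne, fun z hz h0 => by
      rw [h.right z hz] at h0
      obtain ⟨y, hy, h1⟩ := h.inv _ (mul_mem hz (h.star z hz)) (by rw [st_mul, st_st]) (hf z hz h0)
      refine ⟨S.st z * y, mul_mem (h.star z hz) hy, ?_⟩
      rw [h.comm _ (mul_mem (h.star z hz) hy) z hz, ← mul_assoc, h1, h.toLoc.idem]⟩
    exact ⟨e, this, h.symm.symm ▸ this, Or.inl rfl⟩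
  push Not at hf
  obtain ⟨x, hx, h0, h1⟩ := hf
  have hx' := h.star x hx
  obtain ⟨y, hy, h2⟩ := h.inv (x + S.st x) (add_mem hx hx') (by rw [st_add, st_st, add_comm])
    fun h4 => h0 (h.red x hx (by
      have := congrArg (x * ·) h4
      simpa only [mul_add, h1, add_zero, mul_zero] using this))
  have hy' := h.star y hy
  have h3 : S.st y = y := by
    have h4 := congrArg S.st h2
    rw [st_mul, st_add, st_st, add_comm, h.symm] at h4
    rw [← h.right _ hy', ← h2, ← mul_assoc, h4, h.left y hy]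
  have e1 : S.st (x * y) = S.st x * y := by rw [st_mul, h3, h.comm y hy _ hx']
  have e2 : x * y + S.st (x * y) = e := by rw [e1, ← add_mul, h2]
  have e3 : x * y * S.st (x * y) = 0 := by
    rw [e1, mul_assoc, ← mul_assoc y, h.comm y hy _ hx', ← mul_assoc, ← mul_assoc, h1, zero_mul,
      zero_mul]
  have key : ∀ η ∈ D, η + S.st η = e → η * S.st η = 0 → S.Prim D η := by
    intro η hη a1 a2
    have hη' := h.star η hη
    have a3 : η * η = η := by
      conv_rhs => rw [← h.right η hη, ← a1, mul_add, a2, add_zero]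
    refine ⟨hη, a3, fun a4 => h.ne (by rw [← a1, a4, st_zero, add_zero]), fun z hz a4 => ?_⟩
    have a5 : (z * η + S.st (z * η)) * η = z * η := by
      rw [add_mul, mul_assoc, a3, st_mul, h.comm _ hη' _ (h.star z hz), mul_assoc (S.st z),
        h.comm _ hη' η hη, a2, mul_zero, add_zero]
    obtain ⟨t, ht, a6⟩ := h.inv (z * η + S.st (z * η))
      (add_mem (mul_mem hz hη) (h.star _ (mul_mem hz hη))) (by rw [st_add, st_st, add_comm])
      fun a7 => a4 (by rw [← a5, a7, zero_mul])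
    refine ⟨t, ht, ?_⟩
    rw [mul_assoc, ← a5, ← mul_assoc, h.comm t ht _
      (add_mem (mul_mem hz hη) (h.star _ (mul_mem hz hη))), a6, h.left η hη]
  have hm := mul_mem hx hy
  exact ⟨x * y, key _ hm e2 e3, key _ (h.star _ hm) (by rw [st_st, add_comm, e2])
    (by rw [st_st, h.comm _ (h.star _ hm) _ hm, e3]), Or.inr ⟨e2, e3⟩⟩

variable [Finite V]

theorem PSc.two_le_card (h : S.PSc D e) : 2 ≤ Nat.card D := by
  have : Nontrivial D := ⟨⟨e, h.mem⟩, 0, fun e1 => h.ne (congrArg Subtype.val e1)⟩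
  exact Finite.one_lt_card

theorem simp_of_sp (hl : S.Loc J e) (h : S.SP J)
    (hi : ∀ f ∈ S.ctr J e, S.st f = f → f * f = f → f = 0 ∨ f = e) : S.Simp J e := by
  refine ⟨hl, fun R hR hs hI => ?_⟩
  obtain ⟨f, hf, h1, h2, h3⟩ := h.ideal hl.un hR hI
  have h4 : S.st f = f := by
    have h5 := h3 _ (hs f hf)
    have h6 := congrArg S.st h5
    rw [st_mul, st_st, h5] at h6
    exact h6
  rcases hi f h1 h4 h2 with h5 | h5
  · exact Or.inl (eq_bot_iff.2 fun x hx => NonUnitalSubring.mem_bot.2 (by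
      rw [← h3 x hx, h5, zero_mul]))
  · exact Or.inr (le_antisymm hR fun y hy => hl.left y hy ▸ (hI e (h5 ▸ hf) y hy).1)

theorem boo_ctr (hl : S.Loc J e) :
    Boo {f | f ∈ S.ctr J e ∧ S.st f = f ∧ f * f = f} e where
  fin := Set.toFinite _
  top := ⟨hl.ctr.mem, hl.symm, hl.idem⟩
  idem := fun _ hf => hf.2.2
  comm := fun _ hf _ hg => ctr_comm hf.1 hg.1.1
  mul := fun f hf g hg => ⟨mul_mem hf.1 hg.1, by
    rw [st_mul, hf.2.1, hg.2.1, ctr_comm hf.1 hg.1.1], by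
    rw [mul_assoc, ← mul_assoc g, ← ctr_comm hf.1 hg.1.1, mul_assoc, hg.2.2, ← mul_assoc,
      hf.2.2]⟩
  sub := fun f hf => ⟨sub_mem hl.ctr.mem hf.1, by rw [st_sub, hl.symm, hf.2.1], by
    rw [sub_mul, mul_sub, mul_sub, hl.idem, hl.left f hf.1.1, hl.right f hf.1.1, hf.2.2, sub_self,
      sub_zero]⟩
  one := fun f hf => hl.left f hf.1.1

omit [Finite V] in
theorem comps_eq : S.comps J e = atoms {f | f ∈ S.ctr J e ∧ S.st f = f ∧ f * f = f} := by
  ext w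
  exact ⟨fun h => ⟨⟨h.1, h.2.1, h.2.2.1⟩, h.2.2.2.1, fun f hf => h.2.2.2.2 f hf.1 hf.2.1 hf.2.2⟩,
    fun h => ⟨h.1.1, h.1.2.1, h.1.2.2, h.2.1, fun f h1 h2 h3 => h.2.2 f ⟨h1, h2, h3⟩⟩⟩

omit [Finite V] in
theorem comps_orth {w' : S.E} (hw : w ∈ S.comps J e) (hw' : w' ∈ S.comps J e) (hne : w ≠ w') :
    w * w' = 0 := by
  rcases hw'.2.2.2.2 w hw.1 hw.2.1 hw.2.2.1 with h1 | h1
  · exact h1
  · rcases hw.2.2.2.2 w' hw'.1 hw'.2.1 hw'.2.2.1 with h2 | h2
    · rw [ctr_comm hw.1 hw'.1.1, h2]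
    · exact absurd (by rw [← h2, ← ctr_comm hw.1 hw'.1.1, h1]) hne

theorem comps_sum (hl : S.Loc J e) :
    ∃ W : Finset S.E, (∀ w, w ∈ W ↔ w ∈ S.comps J e) ∧ ∑ w ∈ W, w = e := by
  rw [comps_eq]
  exact (boo_ctr hl).sum_atoms

theorem comps_simp (hl : S.Loc J e) (h : S.SP J) (hw : w ∈ S.comps J e) :
    S.Simp (S.cor J w) w := by
  refine simp_of_sp (cor_loc hl.star hw.1.1 hw.2.2.2.1 hw.2.1 hw.2.2.1) (h.cor hw.1.1 hw.2.2.1)
    fun f hf hs hi => ?_
  rw [ctr_cor hl.un hw.1 hw.2.2.1] at hf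
  have := hw.2.2.2.2 f hf.1 hs hi
  rwa [(mem_cor.1 hf).2.2] at this

theorem simp_of_comps (hl : S.Loc J e) (h : S.SP J) (he : e ∈ S.comps J e) : S.Simp J e :=
  simp_of_sp hl h fun f hf hs hi => by
    have := he.2.2.2.2 f hf hs hi
    rwa [hl.right f hf.1] at this

omit [Finite V] in
theorem NmR.ctr {X : Subgroup S.Eˣ} (hu : S.Un J e) (hn : S.NmR X J) : S.NmR X (S.ctr J e) :=
  fun g hg x hx => mem_ctr_of hu (hn g hg x hx.1) fun y hy => by
    have := congrArg (fun t => g.1 * t * g⁻¹.1) (ctr_comm hx (hn g⁻¹ (inv_mem hg) y hy))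
    simpa [mul_assoc] using this

omit [Finite V] in
theorem comps_conj {X : Subgroup S.Eˣ} (hl : S.Loc J e) (hn : S.NmR X J)
    (hs : ∀ g ∈ X, ∀ x ∈ J, S.st (g.1 * x * g⁻¹.1) = g.1 * S.st x * g⁻¹.1) {g : S.Eˣ} (hg : g ∈ X)
    (hw : w ∈ S.comps J e) : g.1 * w * g⁻¹.1 ∈ S.comps J e := by
  refine ⟨hn.ctr hl.un g hg w hw.1, by rw [hs g hg w hw.1.1, hw.2.1],
    by rw [← conj_mul, hw.2.2.1], fun h0 => hw.2.2.2.1 ?_, fun f hf h1 h2 => ?_⟩
  · simpa [mul_assoc] using congrArg (fun t => g⁻¹.1 * t * g.1) h0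
  · refine (hw.2.2.2.2 _ (hn.ctr hl.un g⁻¹ (inv_mem hg) f hf)
      (by rw [hs _ (inv_mem hg) f hf.1, h1]) (by rw [← conj_mul, h2])).imp (fun h3 => ?_)
      fun h3 => ?_
    · simpa [mul_assoc] using congrArg (fun t => g.1 * t * g⁻¹.1) h3
    · simpa [mul_assoc] using congrArg (fun t => g.1 * t * g⁻¹.1) h3

theorem PSc.scal (h : S.PSc D e) {X : Set S.E}
    (hX : ∀ k ∈ X, S.st k * k = 1 ∧ ∀ v, S.q (k v) = S.q v)
    (hfix : ∀ v, e v = v → (∀ k ∈ X, k v = v) → v = 0) (hc : ∀ k ∈ X, ∀ z ∈ D, k * z = z * k) :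
    S.Scal D e := by
  refine ⟨h.toLoc, h.comm, h.red, h.inv, fun x hx y hy hxy v => ?_⟩
  by_cases ho : S.orth
  swap
  · rw [(S.alt ho _).1, (S.alt ho _).1]
  have h1 : ∀ k ∈ X, ∀ z ∈ D, ∀ v, S.q (z (k v)) = S.q (z v) := fun k hk z hz v => by
    rw [← Module.End.mul_apply, ← hc k hk z hz, Module.End.mul_apply, (hX k hk).2]
  refine sub_eq_zero.1 (fun_eq_zero h.symm (fun k hk => (hX k hk).1) hfix
    (qdiff (fun v => S.q (x v)) (fun v => S.q (y v)) (fun v w => S.β v ((x * S.st x) w))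
      (fun v w => by rw [map_add, S.q_add ho, β_mu, h.comm _ (h.star x hx) x hx])
      (fun v w => by rw [map_add, S.q_add ho, β_mu, h.comm _ (h.star y hy) y hy, hxy]))
    (fun k hk v => ?_) (fun v => ?_) v)
  · show S.q (x (k v)) - S.q (y (k v)) = S.q (x v) - S.q (y v)
    rw [h1 k hk x hx, h1 k hk y hy]
  · show S.q (x (e v)) - S.q (y (e v)) = S.q (x v) - S.q (y v)
    rw [← Module.End.mul_apply, ← Module.End.mul_apply, h.right x hx, h.right y hy]

theorem Simp.scal (h : S.Simp J e) (ht : S.TC J e) : S.Scal (S.ctr J e) e :=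
  h.psc.scal (X := {k | ∃ g ∈ S.iso J, k = g.1})
    (by rintro _ ⟨g, hg, rfl⟩; exact ⟨iso_uni hg, iso_q hg⟩)
    (fun v hv h1 => ht v hv fun g hg => h1 _ ⟨g, hg, rfl⟩)
    (by rintro _ ⟨g, hg, rfl⟩ z hz; exact (iso_comm hg fun d hd => ctr_comm hz hd).symm)

theorem Simp.cent_cent (h : S.Simp J e) : S.cent (S.cent J e) e = J := h.sp.cent_cent h.toLoc.un

theorem Simp.ctr_cent (h : S.Simp J e) : S.ctr (S.cent J e) e = S.ctr J e := by
  rw [ctr, h.cent_cent, inf_comm, ctr]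

theorem Simp.cent (h : S.Simp J e) : S.Simp (S.cent J e) e :=
  simp_of_sp h.toLoc.cent (h.sp.cent h.toLoc.un) fun _ hf => h.sym_idem (h.ctr_cent ▸ hf)

end FS

end Vale.Agent.P183NK
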