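import Vale.Agent.P183RT.RT2
import Mathlib.RingTheory.SimpleModule.WedderburnArtin
import Mathlib.RingTheory.LittleWedderburn

/-!
Ring toolkit, part 3: matrix units, degrees and ranks.
-/

namespace Vale.Agent.P183NK

open Subgroup Vale.Agent.P183A

namespace FS

variable {p : ℕ} [Fact p.Prime] {V : Type} [AddCommGroup V] [Module (ZMod p) V] {S : FS p V}
  {J J' R D P Z : S.NR} {e e' w η x : S.E} {m m' : ℕ}
  {ι : Type} [Fintype ι] [DecidableEq ι] {u : ι → ι → S.E}

namespace MU0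

variable (h : S.MU0 e u)
include h

theorem mul_same (i j l : ι) : u i j * u j l = u i l := by rw [h.mul, if_pos rfl]

theorem left (i j : ι) : e * u i j = u i j := by
  rw [← h.sum, Finset.sum_mul]
  simp only [h.mul, Finset.sum_ite_eq', Finset.mem_univ, if_true]

theorem right (i j : ι) : u i j * e = u i j := by
  rw [← h.sum, Finset.mul_sum]
  simp only [h.mul, Finset.sum_ite_eq, Finset.mem_univ, if_true]

theorem idem : e * e = e := by
  conv_lhs => rw [← h.sum, Finset.sum_mul]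
  simp only [h.sum, h.right]

theorem coef_mul_u (x : S.E) (i j k l : ι) : S.coef u x i j * u k l = u k i * x * u j l := by
  simp only [coef, Finset.sum_mul, mul_assoc, h.mul, mul_ite, mul_zero, Finset.sum_ite_eq',
    Finset.mem_univ, if_true]

theorem u_mul_coef (x : S.E) (i j k l : ι) : u k l * S.coef u x i j = u k i * x * u j l := by
  simp only [coef, Finset.mul_sum, ← mul_assoc, h.mul, ite_mul, zero_mul, Finset.sum_ite_eq,
    Finset.mem_univ, if_true]

theorem coef_comm (x : S.E) (i j k l : ι) :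
    S.coef u x i j * u k l = u k l * S.coef u x i j := by rw [h.coef_mul_u, h.u_mul_coef]

theorem sum_coef (x : S.E) : ∑ i, ∑ j, S.coef u x i j * u i j = e * x * e := by
  simp only [h.coef_mul_u, ← h.sum, Finset.sum_mul, Finset.mul_sum]
  exact Finset.sum_comm

theorem e_coef (x : S.E) (i j : ι) : e * S.coef u x i j = S.coef u x i j := by
  simp only [coef, Finset.mul_sum, ← mul_assoc, h.left]

theorem coef_e (x : S.E) (i j : ι) : S.coef u x i j * e = S.coef u x i j := by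
  simp only [coef, Finset.sum_mul, mul_assoc, h.right]

theorem coef_mul (x y : S.E) (i j : ι) :
    S.coef u (x * e * y) i j = ∑ l, S.coef u x i l * S.coef u y l j := by
  have : ∀ l, S.coef u x i l * S.coef u y l j = ∑ k, u k i * x * u l l * y * u j k := fun l => by
    conv_lhs => rw [coef.eq_def S u y, Finset.mul_sum]
    exact Finset.sum_congr rfl fun k _ => by rw [← mul_assoc, ← mul_assoc, h.coef_mul_u]
  rw [Finset.sum_congr rfl fun l _ => this l, Finset.sum_comm, coef]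
  refine Finset.sum_congr rfl fun k _ => ?_
  rw [← h.sum]
  simp only [Finset.sum_mul, Finset.mul_sum, mul_assoc]

omit [DecidableEq ι] h in
theorem coef_smul {z : S.E} (hz : ∀ i j, z * u i j = u i j * z) (x : S.E) (i j : ι) :
    S.coef u (z * x) i j = z * S.coef u x i j := by
  simp only [coef, Finset.mul_sum, ← mul_assoc, hz]

theorem coef_u (a b i j : ι) : S.coef u (u a b) i j = if i = a ∧ j = b then e else 0 := by
  by_cases h1 : i = a
  · by_cases h2 : j = b
    · simp only [coef, h1, h2, h.mul_same, h.sum, and_self, if_true]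
    · simp [coef, h1, h2, h.mul, Ne.symm h2]
  · simp [coef, h1, h.mul]

theorem coef_one (i j : ι) : S.coef u e i j = if i = j then e else 0 := by
  by_cases h1 : i = j
  · simp only [coef, h.right, h1, h.mul_same, h.sum, if_true]
  · simp [coef, h.right, h.mul, h1]

omit [DecidableEq ι] h in
theorem coef_sum {κ : Type} (s : Finset κ) (f : κ → S.E) (i j : ι) :
    S.coef u (∑ a ∈ s, f a) i j = ∑ a ∈ s, S.coef u (f a) i j := by
  simp only [coef, Finset.mul_sum, Finset.sum_mul]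
  exact Finset.sum_comm

theorem coef_comb {z : ι → ι → S.E} (hz : ∀ a b i j, z a b * u i j = u i j * z a b)
    (he : ∀ a b, z a b * e = z a b) (i j : ι) :
    S.coef u (∑ a, ∑ b, z a b * u a b) i j = z i j := by
  simp only [coef_sum, coef_smul (hz _ _), h.coef_u, mul_ite, mul_zero, he, ite_and,
    Finset.sum_ite_irrel, Finset.sum_const_zero, Finset.sum_ite_eq, Finset.mem_univ, if_true]

theorem eq_zero_of_mul {z : S.E} (hz : ∀ i j, z * u i j = u i j * z) {i j : ι}
    (h0 : z * u i j = 0) : z * e = 0 := by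
  rw [← h.sum, Finset.mul_sum]
  refine Finset.sum_eq_zero fun k _ => ?_
  rw [← h.mul_same k i k, ← h.mul_same i j k, ← mul_assoc, hz, mul_assoc, ← mul_assoc z, h0,
    zero_mul, mul_zero]

theorem nonempty (h0 : e ≠ 0) : Nonempty ι := by
  by_contra hn
  rw [not_nonempty_iff] at hn
  exact h0 (by rw [← h.sum, Finset.univ_eq_empty, Finset.sum_empty])

theorem card_range (i : ι) :
    Nat.card (LinearMap.range e) = Nat.card (LinearMap.range (u i i)) ^ Fintype.card ι := by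
  rw [← Nat.card_eq_fintype_card, ← Nat.card_fun]
  refine Nat.card_congr ⟨fun v j => ⟨u i j v.1, u i j v.1, by
      rw [← Module.End.mul_apply, h.mul_same]⟩,
    fun t => ⟨∑ j, u j i (t j).1, ∑ j, u j i (t j).1, by
      simp only [map_sum, ← Module.End.mul_apply, h.left]⟩, fun v => Subtype.ext ?_,
    fun t => funext fun j => Subtype.ext ?_⟩
  · simp only [← Module.End.mul_apply, h.mul_same]
    rw [← LinearMap.sum_apply, h.sum]
    exact (mem_range_idem h.idem).1 v.2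
  · simp only [map_sum, ← Module.End.mul_apply, h.mul]
    rw [Finset.sum_eq_single j (fun k _ hk => by simp [Ne.symm hk]) (by simp), if_pos rfl]
    exact (mem_range_idem (h.mul_same i i i)).1 (t j).2

/-- products of commuting matrix units -/
theorem prod {κ : Type} [Fintype κ] [DecidableEq κ] {v : κ → κ → S.E} (h' : S.MU0 e v)
    (hc : ∀ i j k l, u i j * v k l = v k l * u i j) :
    S.MU0 e fun a b : ι × κ => u a.1 b.1 * v a.2 b.2 := by
  refine ⟨fun a b c d => ?_, ?_⟩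
  · rw [mul_assoc, ← mul_assoc (v _ _), ← hc, mul_assoc, ← mul_assoc, h.mul, h'.mul]
    by_cases h1 : b.1 = c.1 <;> by_cases h2 : b.2 = c.2 <;> simp [h1, h2, Prod.ext_iff]
  · rw [Fintype.sum_prod_type]
    simp only [← Finset.mul_sum, h'.sum, h.right, h.sum]

/-- The elements with coefficients in `D`. -/
def mat (D : S.NR) : S.NR where
  carrier := {x | e * x = x ∧ x * e = x ∧ ∀ i j, S.coef u x i j ∈ D}
  add_mem' := fun {a b} ha hb => ⟨by rw [mul_add, ha.1, hb.1], by rw [add_mul, ha.2.1, hb.2.1],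
    fun i j => by
      simpa only [coef, mul_add, add_mul, Finset.sum_add_distrib] using
        add_mem (ha.2.2 i j) (hb.2.2 i j)⟩
  zero_mem' := ⟨mul_zero _, zero_mul _, fun i j => by simp [coef]⟩
  mul_mem' := fun {a b} ha hb => ⟨by rw [← mul_assoc, ha.1], by rw [mul_assoc, hb.2.1],
    fun i j => by
      rw [← ha.2.1, h.coef_mul]
      exact sum_mem fun l _ => mul_mem (ha.2.2 i l) (hb.2.2 l j)⟩
  neg_mem' := fun {a} ha => ⟨by rw [mul_neg, ha.1], by rw [neg_mul, ha.2.1], fun i j => by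
    simpa only [coef, mul_neg, neg_mul, Finset.sum_neg_distrib] using neg_mem (ha.2.2 i j)⟩

theorem u_mem_mat (hD : S.Un D e) (i j : ι) : u i j ∈ h.mat D :=
  ⟨h.left i j, h.right i j, fun a b => by
    rw [h.coef_u]
    split_ifs
    exacts [hD.mem, zero_mem _]⟩

theorem le_mat (hD : S.Un D e) (hc : ∀ z ∈ D, ∀ i j, z * u i j = u i j * z) : D ≤ h.mat D :=
  fun z hz => ⟨hD.left z hz, hD.right z hz, fun a b => by
    rw [← hD.right z hz, coef_smul (hc z hz), h.coef_one]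
    split_ifs
    exacts [mul_mem hz hD.mem, (mul_zero z).symm ▸ zero_mem _]⟩

theorem mat_le (hD : D ≤ J) (hm : ∀ i j, u i j ∈ J) : h.mat D ≤ J := fun x hx => by
  rw [← hx.2.1, ← hx.1, ← h.sum_coef]
  exact sum_mem fun i _ => sum_mem fun j _ => mul_mem (hD (hx.2.2 i j)) (hm i j)

theorem comm_of_mem_mat {y : S.E} (hx : x ∈ h.mat D) (h1 : ∀ z ∈ D, y * z = z * y)
    (h2 : ∀ i j, y * u i j = u i j * y) : y * x = x * y := by
  rw [← hx.2.1, ← hx.1, ← h.sum_coef]
  simp only [Finset.mul_sum, Finset.sum_mul]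
  refine Finset.sum_congr rfl fun i _ => Finset.sum_congr rfl fun j _ => ?_
  rw [← mul_assoc, h1 _ (hx.2.2 i j), mul_assoc, h2, mul_assoc]

end MU0

omit [DecidableEq ι] in
theorem coef_mem (hm : ∀ i j, u i j ∈ J) (hx : x ∈ J) (i j : ι) : S.coef u x i j ∈ J :=
  sum_mem fun k _ => mul_mem (mul_mem (hm k i) hx) (hm j k)

theorem MU.coef_mem (h : S.MU J e u) (hx : x ∈ J) (i j : ι) : S.coef u x i j ∈ S.ctr J e := by
  obtain ⟨z, hz, rfl⟩ := h.span x hx
  rw [h.toMU0.coef_comb (fun a b i j => ctr_comm (hz a b) (h.mem i j)) fun a b => (hz a b).2.2.1]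
  exact hz i j

theorem MU.un (h : S.MU J e u) : S.Un J e := by
  refine ⟨h.sum ▸ sum_mem fun i _ => h.mem i i, fun x hx => ?_, fun x hx => ?_⟩
  · obtain ⟨z, hz, rfl⟩ := h.span x hx
    simp only [Finset.mul_sum, ← mul_assoc, (hz _ _).2.1]
  · obtain ⟨z, hz, rfl⟩ := h.span x hx
    simp only [Finset.sum_mul, mul_assoc, h.toMU0.right]

theorem MU.eq_mat (h : S.MU J e u) : J = h.toMU0.mat (S.ctr J e) :=
  le_antisymm (fun x hx => ⟨h.un.left x hx, h.un.right x hx, h.coef_mem hx⟩)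
    (h.toMU0.mat_le inf_le_left h.mem)

theorem MU.eq_sum (h : S.MU J e u) (hx : x ∈ J) : x = ∑ i, ∑ j, S.coef u x i j * u i j := by
  rw [h.toMU0.sum_coef, h.un.left x hx, h.un.right x hx]

theorem MU.comm (h : S.MU J e u) {y : S.E} (h1 : ∀ z ∈ S.ctr J e, y * z = z * y)
    (h2 : ∀ i j, y * u i j = u i j * y) : ∀ x ∈ J, y * x = x * y :=
  fun _ hx => h.toMU0.comm_of_mem_mat (h.eq_mat.le hx) h1 h2

theorem mu_of_coef (hu : S.Un J e) (h : S.MU0 e u) (hm : ∀ i j, u i j ∈ J)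
    (hc : ∀ x ∈ J, ∀ i j, S.coef u x i j ∈ S.ctr J e) : S.MU J e u :=
  ⟨h, hm, fun x hx => ⟨_, hc x hx, by rw [h.sum_coef, hu.left x hx, hu.right x hx]⟩⟩

/-- The combination of matrix units with given central coefficients. -/
def comb (hm : ∀ i j, u i j ∈ J) (e : S.E) (z : ι → ι → S.ctr J e) : J :=
  ⟨∑ i, ∑ j, (z i j).1 * u i j, sum_mem fun i _ => sum_mem fun j _ =>
    mul_mem (z i j).2.1 (hm i j)⟩

theorem coef_comb (h : S.MU0 e u) (hm : ∀ i j, u i j ∈ J) (z : ι → ι → S.ctr J e) (i j : ι) :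
    S.coef u (comb hm e z).1 i j = (z i j).1 :=
  h.coef_comb (fun a b i j => ctr_comm (z a b).2 (hm i j)) (fun a b => (z a b).2.2.2.1) i j

theorem comb_inj (h : S.MU0 e u) (hm : ∀ i j, u i j ∈ J) : Function.Injective (comb hm e) :=
  fun z z' hz => funext fun i => funext fun j => Subtype.ext (by
    rw [← coef_comb h hm z, hz, coef_comb h hm])

omit [DecidableEq ι] in
theorem card_mat (D : S.NR) :
    Nat.card (ι → ι → D) = Nat.card D ^ (Fintype.card ι * Fintype.card ι) := by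
  rw [Nat.card_fun, Nat.card_fun, Nat.card_eq_fintype_card (α := ι), pow_mul]

theorem MU.deg (h : S.MU J e u) : S.Deg J e (Fintype.card ι) := by
  rw [Deg, ← card_mat]
  refine (Nat.card_congr (Equiv.ofBijective (comb h.mem e) ⟨comb_inj h.toMU0 h.mem, ?_⟩)).symm
  exact fun x => ⟨fun i j => ⟨_, h.coef_mem x.2 i j⟩, Subtype.ext (h.eq_sum x.2).symm⟩

theorem simp_of_mat (hl : S.Loc J e) (hD : S.PSc D e) (hu : S.MU0 e u)
    (hc : ∀ z ∈ D, ∀ i j, z * u i j = u i j * z) (h1 : D ≤ J) (h2 : ∀ i j, u i j ∈ J)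
    (h3 : J ≤ hu.mat D) : S.Simp J e ∧ S.ctr J e = D ∧ S.MU J e u := by
  have h4 : D ≤ S.ctr J e := fun z hz => mem_ctr_of hl.un (h1 hz) fun x hx =>
    hu.comm_of_mem_mat (h3 hx) (hD.comm z hz) (hc z hz)
  obtain ⟨i⟩ := hu.nonempty hl.ne
  refine ⟨⟨hl, fun R hR hs hi => or_iff_not_imp_left.2 fun h0 => ?_⟩,
    le_antisymm (fun x hx => ?_) h4, mu_of_coef hl.un hu h2 fun x hx i j => h4 ((h3 hx).2.2 i j)⟩
  · obtain ⟨x, hx, i, j, h5⟩ : ∃ x ∈ R, ∃ i j, S.coef u x i j ≠ 0 := by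
      by_contra hn
      push Not at hn
      refine h0 (eq_bot_iff.2 fun x hx => NonUnitalSubring.mem_bot.2 ?_)
      rw [← hl.right x (hR hx), ← hl.left x (hR hx), ← hu.sum_coef]
      simp [hn x hx]
    have h6 := hD.mem_of_ideal hs (fun x hx y hy => (hi x hx y (h1 hy)).1)
      (sum_mem fun k _ => (hi _ (hi x hx _ (h2 k i)).2 _ (h2 j k)).1) ((h3 (hR hx)).2.2 i j) h5
    exact le_antisymm hR fun y hy => hl.left y hy ▸ (hi e h6 y hy).1
  · have h5 := (h3 hx.1).2.2 i i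
    rwa [← hl.right x hx.1, MU0.coef_smul fun a b => ctr_comm hx (h2 a b), hu.coef_one,
      if_pos rfl, hl.right x hx.1] at h5

theorem simp_of_mu0 (hl : S.Loc J e) (hD : S.PSc D e) (hu : S.MU0 e u)
    (hc : ∀ z ∈ D, ∀ i j, z * u i j = u i j * z)
    (hJ : J = NonUnitalSubring.closure ((D : Set S.E) ∪ {x | ∃ i j, x = u i j})) :
    S.Simp J e ∧ S.ctr J e = D ∧ S.MU J e u :=
  simp_of_mat hl hD hu hc (fun _ hz => hJ ▸ NonUnitalSubring.subset_closure (Or.inl hz))
    (fun i j => hJ ▸ NonUnitalSubring.subset_closure (Or.inr ⟨i, j, rfl⟩))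
    (hJ ▸ NonUnitalSubring.closure_le.2 (by
      rintro x (hx | ⟨i, j, rfl⟩)
      exacts [hu.le_mat hD.toLoc.un hc hx, hu.u_mem_mat hD.toLoc.un i j]))

variable [Finite V]

/-- Wedderburn's theorems. -/
theorem exists_mu_of_simple (hu : S.Un J e) (h0 : e ≠ 0) (h : S.SP J)
    (hi : ∀ f ∈ S.ctr J e, f * f = f → f = 0 ∨ f = e) :
    ∃ (m : ℕ) (u : Fin m → Fin m → S.E), 0 < m ∧ S.MU J e u := by
  have : Nontrivial (UR hu) := ⟨1, 0, fun h1 => h0 (congrArg UR.val h1)⟩
  have : IsSimpleRing (UR hu) := IsSimpleRing.of_eq_bot_or_eq_top fun I => by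
    let R : S.NR :=
      { carrier := {x | ∃ y ∈ I, y.val = x}
        add_mem' := by
          rintro _ _ ⟨a, ha, rfl⟩ ⟨b, hb, rfl⟩
          exact ⟨a + b, I.add_mem ha hb, rfl⟩
        zero_mem' := ⟨0, I.zero_mem, rfl⟩
        mul_mem' := by
          rintro _ _ ⟨a, ha, rfl⟩ ⟨b, _, rfl⟩
          exact ⟨a * b, I.mul_mem_right _ _ ha, rfl⟩
        neg_mem' := by
          rintro _ ⟨a, ha, rfl⟩
          exact ⟨-a, I.neg_mem ha, rfl⟩ }
    obtain ⟨_, ⟨f, hf, rfl⟩, h1, h2, h3⟩ := h.ideal hu (R := R)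
      (by rintro _ ⟨a, -, rfl⟩; exact a.mem)
      (by
        rintro _ ⟨a, ha, rfl⟩ y hy
        exact ⟨⟨a * UR.mk hu y hy, I.mul_mem_right _ _ ha, rfl⟩,
          ⟨UR.mk hu y hy * a, I.mul_mem_left _ _ ha, rfl⟩⟩)
    rcases hi _ h1 h2 with h4 | h4
    · exact Or.inl (eq_bot_iff.2 fun x hx => (TwoSidedIdeal.mem_bot _).2 (UR.ext (by
        rw [← h3 _ ⟨x, hx, rfl⟩, h4, zero_mul, UR.val_zero])))
    · exact Or.inr ((TwoSidedIdeal.one_mem_iff I).1 ((UR.ext h4 : f = 1) ▸ hf))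
  obtain ⟨n, hn, K, _, ⟨φ⟩⟩ := IsSimpleRing.exists_ringEquiv_matrix_divisionRing (UR hu)
  have : Finite (Matrix (Fin n) (Fin n) K) := Finite.of_equiv _ φ.toEquiv
  have : Finite K := Finite.of_injective (fun a : K => Matrix.scalar (Fin n) a)
    fun a b hab => by simpa using congrFun (congrFun hab 0) 0
  have hK : ∀ a b : K, a * b = b * a := (littleWedderburn K).mul_comm
  refine ⟨n, fun i j => (φ.symm (Matrix.single i j 1)).val, hn.pos, ⟨fun i j k l => ?_, ?_⟩,
    fun i j => UR.mem _, fun x hx => ?_⟩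
  · rw [← UR.val_mul, ← map_mul]
    split_ifs with h1
    · rw [h1, Matrix.single_mul_single_same, mul_one]
    · rw [Matrix.single_mul_single_of_ne _ _ _ _ h1, map_zero, UR.val_zero]
  · rw [← UR.val_sum, ← map_sum, Matrix.sum_single_one, map_one, UR.val_one]
  · refine ⟨fun i j => (φ.symm (Matrix.scalar (Fin n) (φ (UR.mk hu x hx) i j))).val,
      fun i j => mem_ctr_of hu (UR.mem _) fun y hy => ?_, ?_⟩
    · have h1 := congrArg (fun t => (φ.symm t).val) (Matrix.scalar_commute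
        (φ (UR.mk hu x hx) i j) (fun b => hK _ b) (φ (UR.mk hu y hy))).eq
      simpa only [map_mul, RingEquiv.symm_apply_apply, UR.val_mul, UR.val_mk] using h1
    · simp only [← UR.val_mul, ← map_mul, ← UR.val_sum, ← map_sum, Matrix.scalar_apply,
        ← Matrix.smul_eq_diagonal_mul, Matrix.smul_single, smul_eq_mul, mul_one]
      rw [← Matrix.matrix_eq_sum_single, RingEquiv.symm_apply_apply, UR.val_mk]

theorem Simp.exists_mu (h : S.Simp J e) :
    ∃ (m : ℕ) (u : Fin m → Fin m → S.E), 0 < m ∧ S.MU J e u := by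
  obtain ⟨η, h1, -, h3⟩ := h.psc.exists_prim
  have hu := h.toLoc.un
  obtain ⟨m, v, hm, hv⟩ := exists_mu_of_simple (un_cor h1.mem.1 h1.idem) h1.ne
    (h.sp.cor h1.mem.1 h1.idem) fun f hf hi => or_iff_not_imp_left.2 fun h0 => by
      rw [ctr_cor hu h1.mem h1.idem] at hf
      obtain ⟨a1, a2, a3⟩ := mem_cor.1 hf
      obtain ⟨y, hy, a4⟩ := h1.inv f a1 (by rwa [a3])
      rw [mul_assoc, a3] at a4
      rw [← a2, ← a4, mul_assoc, hi]
  rcases h3 with rfl | ⟨h3, h4⟩
  · have : S.cor J η = J := le_antisymm (cor_le _ _) fun x hx =>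
      mem_cor.2 ⟨hx, hu.left x hx, hu.right x hx⟩
    exact ⟨m, v, hm, this ▸ hv⟩
  have hη' := h.psc.star η h1.mem
  have h4' : S.st η * η = 0 := by rw [ctr_comm hη' h1.mem.1, h4]
  have z1 : ∀ x ∈ S.cor J η, ∀ y ∈ S.cor J η, x * S.st y = 0 := fun x hx y hy => by
    rw [← (mem_cor.1 hx).2.2, ← (mem_cor.1 hy).2.2, st_mul, mul_assoc, ← mul_assoc η, h4, zero_mul,
      mul_zero]
  have z2 : ∀ x ∈ S.cor J η, ∀ y ∈ S.cor J η, S.st y * x = 0 := fun x hx y hy => by
    rw [← (mem_cor.1 hx).2.1, ← (mem_cor.1 hy).2.1, st_mul, mul_assoc, ← mul_assoc _ η, h4',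
      zero_mul, mul_zero]
  have hc : ∀ z ∈ S.ctr (S.cor J η) η, z ∈ S.ctr J e := fun z hz =>
    (ctr_cor hu h1.mem h1.idem ▸ hz).1
  refine ⟨m, fun i j => v i j + S.st (v j i), hm, ⟨fun i j k l => ?_, ?_⟩,
    fun i j => add_mem (hv.mem i j).1 (h.star _ (hv.mem j i).1), fun x hx => ?_⟩
  · rw [add_mul, mul_add, mul_add, z1 _ (hv.mem i j) _ (hv.mem l k), z2 _ (hv.mem k l) _ (hv.mem j i),
      ← st_mul, hv.mul, hv.mul]
    by_cases hjk : j = k
    · simp [hjk]
    · simp [hjk, Ne.symm hjk]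
  · rw [Finset.sum_add_distrib, ← st_sum, hv.sum, h3]
  · obtain ⟨z, hz, e1⟩ := hv.span _ (sand_mem_cor h1.mem.1 h1.idem hx)
    obtain ⟨z', hz', e2⟩ := hv.span _ (sand_mem_cor h1.mem.1 h1.idem (h.star x hx))
    refine ⟨fun i j => z i j + S.st (z' j i), fun i j =>
      add_mem (hc _ (hz i j)) (h.psc.star _ (hc _ (hz' j i))), ?_⟩
    have e3 : ∀ i j, (z i j + S.st (z' j i)) * (v i j + S.st (v j i)) =
        z i j * v i j + S.st (z' j i * v j i) := fun i j => by
      rw [add_mul, mul_add, mul_add, z1 _ (hz i j).1 _ (hv.mem j i),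
        z2 _ (hv.mem i j) _ (hz' j i).1, ← st_mul, ctr_comm (hz' j i) (hv.mem j i), add_zero,
        zero_add]
    simp only [e3, Finset.sum_add_distrib, ← st_sum]
    rw [← e1, Finset.sum_comm, ← e2, st_mul, st_mul, st_st, ctr_comm h1.mem hx, mul_assoc, h1.idem,
      ← ctr_comm hη' hx, ← mul_assoc, ← st_mul, h1.idem, ctr_comm hη' hx, ← mul_add, h3,
      hu.right x hx]

theorem Simp.exists_deg (h : S.Simp J e) : ∃ m, 0 < m ∧ S.Deg J e m := by
  obtain ⟨m, u, hm, hu⟩ := h.exists_mu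
  exact ⟨m, hm, by simpa using hu.deg⟩

theorem Simp.deg_unique (h : S.Simp J e) (h1 : S.Deg J e m) (h2 : S.Deg J e m') : m = m' :=
  Nat.mul_self_inj.1 (Nat.pow_right_injective h.psc.two_le_card (h1.symm.trans h2))

theorem Simp.deg_pos (h : S.Simp J e) (h1 : S.Deg J e m) : 0 < m := by
  obtain ⟨m', hm, h2⟩ := h.exists_deg
  rwa [h.deg_unique h1 h2]

theorem Simp.mu_of_deg (h : S.Simp J e) (h1 : S.Deg J e m) :
    ∃ u : Fin m → Fin m → S.E, S.MU J e u := by
  obtain ⟨m', u, -, hu⟩ := h.exists_mu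
  obtain rfl : m = m' := h.deg_unique h1 (by simpa using hu.deg)
  exact ⟨u, hu⟩

theorem Simp.mu_of_mu0 (h : S.Simp J e) (h1 : S.Deg J e (Fintype.card ι))
    (hu : S.MU0 e u) (hm : ∀ i j, u i j ∈ J) : S.MU J e u := by
  have _ := h.ne
  refine ⟨hu, hm, fun x hx => ?_⟩
  obtain ⟨z, hz⟩ := ((comb_inj hu hm).bijective_of_nat_card_le
    (by rw [card_mat]; exact le_of_eq h1)).2 ⟨x, hx⟩
  exact ⟨fun i j => (z i j).1, fun i j => (z i j).2, (congrArg Subtype.val hz).symm⟩

theorem nr_eq_of_card_le (h : J ≤ J') (hc : Nat.card J' ≤ Nat.card J) : J = J' :=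
  SetLike.coe_injective (Set.eq_of_subset_of_ncard_le h hc (Set.toFinite _))

theorem Simp.deg_one (h : S.Simp J e) : S.Deg J e 1 ↔ S.ctr J e = J := by
  have _ := h.ne
  rw [Deg, mul_one, pow_one]
  exact ⟨fun h1 => nr_eq_of_card_le inf_le_left h1.le, fun h1 => by rw [h1]⟩

end FS

end Vale.Agent.P183NK
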