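import Vale.Agent.P183RT.RT3

/-!
Ring toolkit, part 4: ranks, tensor products, corners, unitary elements, inner automorphisms.
-/

namespace Vale.Agent.P183NK

open Subgroup Vale.Agent.P183A

theorem exists_reg {E : Type} [Ring E] [Finite E] {P : NonUnitalSubring E}
    (hc : ∀ x ∈ P, ∀ y ∈ P, x * y = y * x) (hr : ∀ x ∈ P, x * x = 0 → x = 0) {x : E}
    (hx : x ∈ P) : ∃ z ∈ P, z * x * x = x := by
  have h0 : ∀ y ∈ P, ∀ t ∈ P, x * (y - x * t) = 0 → (∃ s ∈ P, y = x * s) ∨ y = x → y = x * t := by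
    intro y hy t ht h1 h2
    have h3 := sub_mem hy (mul_mem hx ht)
    refine sub_eq_zero.1 (hr _ h3 ?_)
    rw [sub_mul, hc x hx t ht, mul_assoc, ← hc x hx t ht, h1, mul_zero, sub_zero]
    rcases h2 with ⟨s, hs, rfl⟩ | rfl
    · rw [hc x hx s hs, mul_assoc, ← hc x hx s hs, h1, mul_zero]
    · exact h1
  have hs := Finite.surjective_of_injective (f := fun y : {y // ∃ s ∈ P, y = x * s} =>
    (⟨x * y.1, y.1, by obtain ⟨s, hs, e⟩ := y.2; exact e ▸ mul_mem hx hs, rfl⟩ :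
      {y // ∃ s ∈ P, y = x * s})) (by
    rintro ⟨_, s, hs, rfl⟩ ⟨_, t, ht, rfl⟩ h
    exact Subtype.ext (h0 _ (mul_mem hx hs) t ht (by
      rw [mul_sub, sub_eq_zero]; exact congrArg Subtype.val h) (Or.inl ⟨s, hs, rfl⟩)))
  obtain ⟨⟨_, t, ht, rfl⟩, h1⟩ := hs ⟨x * x, x, hx, rfl⟩
  have h2 := h0 x hx t ht (by rw [mul_sub, sub_eq_zero]; exact (congrArg Subtype.val h1).symm)
    (Or.inr rfl)
  obtain ⟨⟨_, z, hz, rfl⟩, h3⟩ := hs ⟨x, t, ht, h2⟩
  exact ⟨z, hz, by rw [← hc x hx z hz, ← hc x hx _ (mul_mem hx hz)]; exact congrArg Subtype.val h3⟩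

/-- A finite reduced commutative ring that acts faithfully on a group has a free element. -/
theorem exists_free {E M : Type} [Ring E] [AddCommGroup M] [Module E M] [Finite E] [Finite M]
    (P : NonUnitalSubring E) (hc : ∀ x ∈ P, ∀ y ∈ P, x * y = y * x)
    (hr : ∀ x ∈ P, x * x = 0 → x = 0) (U : AddSubgroup M) (hU : ∀ x ∈ P, ∀ v ∈ U, x • v ∈ U)
    (hf : ∀ x ∈ P, (∀ v ∈ U, x • v = 0) → x = 0) : ∃ v ∈ U, ∀ x ∈ P, x • v = 0 → x = 0 := by
  obtain ⟨v, hv, hmin⟩ := Set.exists_min_image (U : Set M)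
    (fun v => {x | x ∈ P ∧ x • v = 0}.ncard) (Set.toFinite _) ⟨0, U.zero_mem⟩
  refine ⟨v, hv, fun x hx h0 => hf x hx fun w hw => ?_⟩
  obtain ⟨z, hz, h1⟩ := exists_reg hc hr hx
  have h2 : ∀ y ∈ P, y • (v + x • w) = 0 → y • x • w = 0 := fun y hy h3 => by
    have h4 := congrArg (fun t => (z * x) • t) h3
    simp only [smul_add, smul_zero, ← mul_smul] at h4
    rwa [mul_assoc, hc x hx y hy, ← mul_assoc, mul_smul, h0, smul_zero, zero_add, hc y hy x hx,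
      ← mul_assoc, h1, hc x hx y hy, mul_smul] at h4
  have h3 : {y | y ∈ P ∧ y • (v + x • w) = 0} = {y | y ∈ P ∧ y • v = 0} :=
    Set.eq_of_subset_of_ncard_le (fun y hy => ⟨hy.1, by
      have := hy.2
      rwa [smul_add, h2 y hy.1 hy.2, add_zero] at this⟩)
      (hmin _ (U.add_mem hv (hU x hx w hw))) (Set.toFinite _)
  have h4 : x ∈ {y | y ∈ P ∧ y • (v + x • w) = 0} := h3 ▸ ⟨hx, h0⟩
  rw [← h1, mul_smul, mul_smul, h2 x hx h4.2, smul_zero]

namespace FS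

variable {p : ℕ} [Fact p.Prime] {V : Type} [AddCommGroup V] [Module (ZMod p) V] {S : FS p V}
  {J J' R D P Z : S.NR} {e e' w η x : S.E} {m m' : ℕ}
  {ι : Type} [Fintype ι] [DecidableEq ι] {u : ι → ι → S.E}

theorem Loc.sup (h : S.Loc J e) (h' : S.Loc J' e) : S.Loc (J ⊔ J') e := by
  have : J ⊔ J' ≤ S.cor ⊤ e := sup_le (fun x hx => mem_cor.2 ⟨trivial, h.left x hx, h.right x hx⟩)
    fun x hx => mem_cor.2 ⟨trivial, h'.left x hx, h'.right x hx⟩
  exact ⟨(le_sup_left : J ≤ J ⊔ J') h.mem, h.ne, h.symm, fun x hx => (mem_cor.1 (this hx)).2.1,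
    fun x hx => (mem_cor.1 (this hx)).2.2, st_sup h.star h'.star⟩

theorem MU.le_of (h : S.MU J e u) (h1 : S.ctr J e ≤ R) (h2 : ∀ i j, u i j ∈ R) : J ≤ R :=
  h.eq_mat.le.trans (h.toMU0.mat_le h1 h2)

theorem MU.coef_mem_cent (h : S.MU J e u) (hx : x ∈ S.cent (S.ctr J e) e) (i j : ι) :
    S.coef u x i j ∈ S.cent J e :=
  ⟨h.toMU0.e_coef x i j, h.toMU0.coef_e x i j, h.comm (fun z hz => by
    simp only [coef, Finset.sum_mul, Finset.mul_sum]
    refine Finset.sum_congr rfl fun k _ => ?_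
    rw [mul_assoc, ← ctr_comm hz (h.mem j k), ← mul_assoc, mul_assoc _ x, hx.2.2 z hz, ← mul_assoc,
      ← ctr_comm hz (h.mem k i)]
    simp only [mul_assoc]) (h.toMU0.coef_comm x i j)⟩

theorem Simp.cor (h : S.Simp J e) (hw : w ∈ J) (h0 : w ≠ 0) (hs : S.st w = w) (hi : w * w = w) :
    S.Simp (S.cor J w) w ∧ S.ctr (S.cor J w) w = S.cut (S.ctr J e) w := by
  have hsand : ∀ a ∈ J, w * a * w ∈ S.cor J w := fun a ha => sand_mem_cor hw hi ha
  constructor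
  · refine ⟨cor_loc h.star hw h0 hs hi, fun R hR hst hI => ?_⟩
    let T : S.NR :=
      { carrier := {y | y ∈ J ∧ ∀ a ∈ J, ∀ b ∈ J, w * a * y * b * w ∈ R}
        add_mem' := fun ha hb => ⟨add_mem ha.1 hb.1, fun a h1 b h2 => by
          rw [mul_add, add_mul, add_mul]; exact add_mem (ha.2 a h1 b h2) (hb.2 a h1 b h2)⟩
        zero_mem' := ⟨zero_mem _, fun a _ b _ => by simp⟩
        mul_mem' := fun {x y} ha hb => ⟨mul_mem ha.1 hb.1, fun a h1 b h2 => by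
          simpa only [mul_assoc] using ha.2 a h1 _ (mul_mem hb.1 h2)⟩
        neg_mem' := fun ha => ⟨neg_mem ha.1, fun a h1 b h2 => by
          rw [mul_neg, neg_mul, neg_mul]; exact neg_mem (ha.2 a h1 b h2)⟩ }
    refine (h.simple T (fun _ hy => hy.1) (fun y hy => ⟨h.star y hy.1, fun a h1 b h2 => by
        simpa only [st_mul, st_st, hs, mul_assoc] using
          hst _ (hy.2 _ (h.star b h2) _ (h.star a h1))⟩)
      fun x hx y hy => ⟨⟨mul_mem hx.1 hy, fun a h1 b h2 => by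
        simpa only [mul_assoc] using hx.2 a h1 _ (mul_mem hy h2)⟩,
        ⟨mul_mem hy hx.1, fun a h1 b h2 => by
        simpa only [mul_assoc] using hx.2 _ (mul_mem h1 hy) b h2⟩⟩).imp (fun h1 => ?_) fun h1 => ?_
    · refine eq_bot_iff.2 fun x hx => h1.le ⟨(hR hx).1, fun a ha b hb => ?_⟩
      have := (hI _ (hI x hx _ (hsand a ha)).2 _ (hsand b hb)).1
      rwa [mul_assoc _ w x, (mem_cor.1 (hR hx)).2.1, ← mul_assoc, ← mul_assoc, mul_assoc _ x w,
        (mem_cor.1 (hR hx)).2.2] at this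
    · refine le_antisymm hR fun x hx => ?_
      have := (h1.ge hx.1).2 e h.mem e h.mem
      rwa [h.right w hw, (mem_cor.1 hx).2.1, h.right x hx.1, (mem_cor.1 hx).2.2] at this
  have hcut : ∀ {x}, x ∈ S.cut (S.ctr J e) w ↔ ∃ z ∈ S.ctr J e, x = z * w :=
    mem_cut hi fun z hz => (ctr_comm hz hw).symm
  refine le_antisymm (fun z hz => hcut.2 ?_) fun x hx => ?_
  swap
  · obtain ⟨z, hz, rfl⟩ := hcut.1 hx
    refine mem_ctr_of (un_cor hw hi) (mem_cor.2 ⟨mul_mem hz.1 hw, by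
      rw [← mul_assoc, ← ctr_comm hz hw, mul_assoc, hi], by rw [mul_assoc, hi]⟩) fun y hy => ?_
    rw [mul_assoc, (mem_cor.1 hy).2.1, ← mul_assoc, ← ctr_comm hz hy.1, mul_assoc,
      (mem_cor.1 hy).2.2]
  have hL := (cor_loc h.star hw h0 hs hi).ctr
  let T : S.NR :=
    { carrier := {t | t ∈ J ∧ ∀ z ∈ S.ctr (S.cor J w) w, ∃ t' ∈ J, ∀ a ∈ J, ∀ b ∈ J,
        w * a * t' * b * w = z * (w * a * t * b * w)}
      add_mem' := fun ha hb => ⟨add_mem ha.1 hb.1, fun z hz => by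
        obtain ⟨s, h1, h2⟩ := ha.2 z hz
        obtain ⟨t, h3, h4⟩ := hb.2 z hz
        exact ⟨s + t, add_mem h1 h3, fun a h5 b h6 => by
          simp only [mul_add, add_mul, h2 a h5 b h6, h4 a h5 b h6]⟩⟩
      zero_mem' := ⟨zero_mem _, fun z _ => ⟨0, zero_mem _, fun a _ b _ => by simp⟩⟩
      mul_mem' := fun {x y} ha hb => ⟨mul_mem ha.1 hb.1, fun z hz => by
        obtain ⟨s, h1, h2⟩ := ha.2 z hz
        exact ⟨s * y, mul_mem h1 hb.1, fun a h5 b h6 => by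
          simpa only [mul_assoc] using h2 a h5 _ (mul_mem hb.1 h6)⟩⟩
      neg_mem' := fun ha => ⟨neg_mem ha.1, fun z hz => by
        obtain ⟨s, h1, h2⟩ := ha.2 z hz
        exact ⟨-s, neg_mem h1, fun a h5 b h6 => by
          simp only [mul_neg, neg_mul, h2 a h5 b h6]⟩⟩ }
  have hT : e ∈ T := by
    refine ((h.simple T (fun _ hy => hy.1) (fun y hy => ⟨h.star y hy.1, fun z hz => ?_⟩)
      fun x hx y hy => ⟨⟨mul_mem hx.1 hy, fun z hz => ?_⟩,
        ⟨mul_mem hy hx.1, fun z hz => ?_⟩⟩).resolve_left fun h1 => h0 ?_).ge h.mem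
    · obtain ⟨s, h1, h2⟩ := hy.2 _ (hL.star z hz)
      refine ⟨_, h.star s h1, fun a h5 b h6 => ?_⟩
      have h7 := congrArg S.st (h2 _ (h.star b h6) _ (h.star a h5))
      have h8 := ctr_comm hz (hsand _ (mul_mem (mul_mem h5 (h.star y hy.1)) h6))
      simp only [st_mul, st_st, hs, mul_assoc] at h7 h8 ⊢
      rw [h7, h8]
    · obtain ⟨s, h1, h2⟩ := hx.2 z hz
      exact ⟨s * y, mul_mem h1 hy, fun a h5 b h6 => by
        simpa only [mul_assoc] using h2 a h5 _ (mul_mem hy h6)⟩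
    · obtain ⟨s, h1, h2⟩ := hx.2 z hz
      exact ⟨y * s, mul_mem hy h1, fun a h5 b h6 => by
        simpa only [mul_assoc] using h2 _ (mul_mem h5 hy) b h6⟩
    · refine NonUnitalSubring.mem_bot.1 (h1.le ⟨hw, fun z hz => ⟨z, hz.1.1, fun a ha b hb => ?_⟩⟩)
      have h2 := ctr_comm hz (hsand a ha)
      rw [mul_assoc _ w z, hL.left z hz] at h2
      rw [← h2]
      simp only [mul_assoc]
  obtain ⟨z', h1, h2⟩ := hT.2 z hz
  have h3 : z' ∈ S.ctr J e := mem_ctr_of h.toLoc.un h1 fun y hy => by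
    have h4 := (h.ann_cases {(w, w)} (by simp [hs])).resolve_right fun h4 => h0 (by
      simpa only [h.right w hw, hi] using (h4.ge h.mem).2 (w, w) rfl e h.mem e h.mem)
    refine sub_eq_zero.1 (NonUnitalSubring.mem_bot.1 (h4.le ⟨sub_mem (mul_mem h1 hy)
      (mul_mem hy h1), ?_⟩))
    rintro _ rfl a ha b hb
    have h5 := h2 a ha _ (mul_mem hy hb)
    have h6 := h2 _ (mul_mem ha hy) b hb
    simp only [mul_assoc, h.left _ (mul_mem hy (mul_mem hb hw)), h.left _ (mul_mem hb hw)] at h5 h6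
    simp only [mul_sub, sub_mul, mul_assoc, h5, h6, sub_self]
  refine ⟨z', h3, ?_⟩
  have h4 := h2 e h.mem e h.mem
  rw [h.right w hw, h.right w hw, h.right w hw, hi, hL.right z hz, ← ctr_comm h3 hw,
    mul_assoc z', h.right w hw, mul_assoc, hi] at h4
  exact h4.symm

variable [Finite V]

theorem Simp.sup_cent (h : S.Simp J e) : J ⊔ S.cent J e = S.cent (S.ctr J e) e := by
  obtain ⟨m, u, -, hu⟩ := h.exists_mu
  refine le_antisymm (sup_le (fun x hx => ⟨h.left x hx, h.right x hx, fun d hd =>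
    (ctr_comm hd hx).symm⟩) (cent_anti inf_le_left e)) fun x hx => ?_
  rw [← hx.2.1, ← hx.1, ← hu.toMU0.sum_coef]
  exact sum_mem fun i _ => sum_mem fun j _ => mul_mem
    ((le_sup_right : _ ≤ J ⊔ _) (hu.coef_mem_cent hx i j)) ((le_sup_left : J ≤ _) (hu.mem i j))

theorem Simp.sup_mu {κ : Type} [Fintype κ] [DecidableEq κ] {v : κ → κ → S.E} (h : S.Simp J e)
    (h' : S.Simp J' e) (hc : J' ≤ S.cent J e) (hz : S.ctr J e = S.ctr J' e) (hu : S.MU J e u)
    (hv : S.MU J' e v) : S.Simp (J ⊔ J') e ∧ S.ctr (J ⊔ J') e = S.ctr J e ∧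
      S.MU (J ⊔ J') e fun a b : ι × κ => u a.1 b.1 * v a.2 b.2 := by
  have h1 : ∀ i j k l, u i j * v k l = v k l * u i j := fun i j k l =>
    ((hc (hv.mem k l)).2.2 _ (hu.mem i j)).symm
  have h2 := hu.toMU0.prod hv.toMU0 h1
  have h3 : ∀ z ∈ S.ctr J e, ∀ a b : ι × κ,
      z * (u a.1 b.1 * v a.2 b.2) = u a.1 b.1 * v a.2 b.2 * z := fun z h3 a b => by
    rw [← mul_assoc, ctr_comm h3 (hu.mem _ _), mul_assoc, ctr_comm (hz ▸ h3) (hv.mem _ _),
      mul_assoc]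
  have h4 := h2.le_mat h.psc.toLoc.un h3
  refine simp_of_mat (h.toLoc.sup h'.toLoc) h.psc h2 h3 (inf_le_left.trans le_sup_left)
    (fun a b => mul_mem ((le_sup_left : J ≤ _) (hu.mem _ _)) ((le_sup_right : J' ≤ _) (hv.mem _ _)))
    (sup_le (hu.le_of h4 fun i j => ?_) (hv.le_of (hz ▸ h4) fun k l => ?_))
  · rw [show u i j = ∑ k, u i j * v k k by rw [← Finset.mul_sum, hv.sum, hu.toMU0.right]]
    exact sum_mem fun k _ => h2.u_mem_mat h.psc.toLoc.un (i, k) (j, k)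
  · rw [show v k l = ∑ i, u i i * v k l by rw [← Finset.sum_mul, hu.sum, hv.toMU0.left]]
    exact sum_mem fun i _ => h2.u_mem_mat h.psc.toLoc.un (i, k) (i, l)

theorem Simp.sup (h : S.Simp J e) (h' : S.Simp J' e) (hc : J' ≤ S.cent J e)
    (hz : S.ctr J e = S.ctr J' e) (h1 : S.Deg J e m) (h2 : S.Deg J' e m') :
    S.Simp (J ⊔ J') e ∧ S.ctr (J ⊔ J') e = S.ctr J e ∧ S.Deg (J ⊔ J') e (m * m') := by
  obtain ⟨u, hu⟩ := h.mu_of_deg h1
  obtain ⟨v, hv⟩ := h'.mu_of_deg h2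
  obtain ⟨a1, a2, a3⟩ := h.sup_mu h' hc hz hu hv
  exact ⟨a1, a2, by simpa using a3.deg⟩

theorem Simp.sup_psc (h : S.Simp J e) (hD : S.PSc D e) (hc : D ≤ S.cent J e)
    (hz : S.ctr J e ≤ D) (h1 : S.Deg J e m) :
    S.Simp (J ⊔ D) e ∧ S.ctr (J ⊔ D) e = D ∧ S.Deg (J ⊔ D) e m := by
  obtain ⟨u, hu⟩ := h.mu_of_deg h1
  have h3 : ∀ z ∈ D, ∀ i j, z * u i j = u i j * z := fun z h3 i j => (hc h3).2.2 _ (hu.mem i j)
  have h4 := hu.toMU0.le_mat hD.toLoc.un h3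
  obtain ⟨a1, a2, a3⟩ := simp_of_mat (h.toLoc.sup hD.toLoc) hD hu.toMU0 h3 le_sup_right
    (fun a b => (le_sup_left : J ≤ _) (hu.mem _ _))
    (sup_le (hu.le_of (hz.trans h4) (hu.toMU0.u_mem_mat hD.toLoc.un)) h4)
  exact ⟨a1, a2, by simpa using a3.deg⟩

theorem PSc.card_range (h : S.PSc D e) (hu : S.MU (S.cent D e) e u)
    (hz : S.ctr (S.cent D e) e = D) (i : ι) : Nat.card (LinearMap.range (u i i)) = Nat.card D := by
  have hc : ∀ z ∈ D, ∀ a b, z * u a b = u a b * z := fun z h1 a b => ((hu.mem a b).2.2 z h1).symm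
  have hi := hu.toMU0.mul_same i i i
  have hW : ∀ z ∈ D, ∀ v ∈ S.im (u i i), z • v ∈ S.im (u i i) := by
    rintro z h1 _ ⟨v, rfl⟩
    exact ⟨z v, (LinearMap.congr_fun (hc z h1 i i) v).symm⟩
  obtain ⟨v, hv, hf⟩ := exists_free D h.comm h.red (S.im (u i i)) hW fun z h1 h2 => by
    rw [← h.right z h1]
    exact hu.toMU0.eq_zero_of_mul (hc z h1) (LinearMap.ext fun v => h2 _ ⟨v, rfl⟩)
  have hv' : u i i v = v := (mem_range_idem hi).1 hv
  refine (Nat.card_congr (Equiv.ofBijective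
    (fun z : D => (⟨z.1 v, hW z.1 z.2 v hv⟩ : LinearMap.range (u i i))) ⟨fun a b hab => ?_,
      fun y => ?_⟩)).symm
  · exact Subtype.ext (sub_eq_zero.1 (hf _ (sub_mem a.2 b.2)
      (sub_eq_zero.2 (congrArg Subtype.val hab))))
  let U : AddSubgroup V :=
    { carrier := {y | ∃ z ∈ D, y = z v}
      add_mem' := by
        rintro _ _ ⟨a, ha, rfl⟩ ⟨b, hb, rfl⟩
        exact ⟨a + b, add_mem ha hb, rfl⟩
      zero_mem' := ⟨0, zero_mem _, rfl⟩
      neg_mem' := by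
        rintro _ ⟨a, ha, rfl⟩
        exact ⟨-a, neg_mem ha, rfl⟩ }
  have hev : ∀ y, u i i y = y → e y = y := fun y hy => by
    rw [← hy, ← Module.End.mul_apply, hu.toMU0.left]
  obtain ⟨f, h1, h2, h3⟩ := h.sp.exists_proj h.toLoc.un (U := U)
    (by rintro _ ⟨a, ha, rfl⟩; exact LinearMap.congr_fun (h.left a ha) v)
    (by rintro x hx _ ⟨a, ha, rfl⟩; exact ⟨x * a, mul_mem hx ha, rfl⟩)
  have h4 := hu.toMU0.coef_mul_u (e - f) i i i i
  have h5 : S.coef u (e - f) i i = 0 := hf _ (hz.le (hu.coef_mem (sub_mem hu.un.mem h1) i i)) (by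
    have := LinearMap.congr_fun h4 v
    simp only [Module.End.mul_apply, hv', LinearMap.sub_apply, hev v hv',
      (h3 v).1 ⟨e, h.mem, (hev v hv').symm⟩, sub_self, map_zero] at this
    exact this)
  have hy : u i i y.1 = y.1 := (mem_range_idem hi).1 y.2
  obtain ⟨z, h6, h7⟩ := (h3 _).2 (idem_app h2 y.1)
  refine ⟨⟨z, h6⟩, Subtype.ext ?_⟩
  have := LinearMap.congr_fun h4 y.1
  simp only [h5, zero_mul, LinearMap.zero_apply, Module.End.mul_apply, hy, LinearMap.sub_apply,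
    hev _ hy, map_sub, h7] at this
  exact ((mem_range_idem hi).1 (hW z h6 v hv)).symm.trans (sub_eq_zero.1 this.symm).symm

theorem Simp.rank (h : S.Simp J e) (h1 : S.Deg J e m) (h2 : S.Deg (S.cent J e) e m') :
    S.Rank (S.ctr J e) e (m * m') := by
  obtain ⟨u, hu⟩ := h.mu_of_deg h1
  obtain ⟨v, hv⟩ := h.cent.mu_of_deg h2
  obtain ⟨-, a2, a3⟩ := h.sup_mu h.cent le_rfl h.ctr_cent.symm hu hv
  rw [h.sup_cent] at a2 a3
  obtain ⟨i⟩ := a3.toMU0.nonempty h.ne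
  rw [Rank, a3.toMU0.card_range i, h.psc.card_range a3 a2 i]
  simp

theorem PSc.exists_rank (h : S.PSc D e) : ∃ r, 0 < r ∧ S.Rank D e r := by
  obtain ⟨r, h1, h2⟩ := h.simp.1.cent.exists_deg
  exact ⟨r, h1, by simpa [h.ctr_eq] using h.simp.1.rank h.simp.2.2 h2⟩

theorem PSc.rank_unique (h : S.PSc D e) (h1 : S.Rank D e m) (h2 : S.Rank D e m') : m = m' :=
  Nat.pow_right_injective h.two_le_card (h1.symm.trans h2)

theorem PSc.bas (h : S.PSc D e) {r : ℕ} (hr : S.Rank D e r) :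
    S.Simp (S.cent D e) e ∧ S.ctr (S.cent D e) e = D ∧ S.Deg (S.cent D e) e r := by
  obtain ⟨r', -, h2⟩ := h.simp.1.cent.exists_deg
  obtain rfl := h.rank_unique hr (by simpa [h.ctr_eq] using h.simp.1.rank h.simp.2.2 h2)
  exact ⟨h.simp.1.cent, h.simp.1.ctr_cent.trans h.ctr_eq, h2⟩

theorem Simp.exists_unitary (h : S.Simp J e) (hx : x ∈ J) (hc : x ∉ S.ctr J e) :
    ∃ g ∈ J, S.st g * g = e ∧ g ≠ e := by
  by_contra hn
  push Not at hn
  have hs := Finite.surjective_of_injective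
    (f := fun g : {g // g ∈ J ∧ ∃ k ∈ J, g * k = e ∧ k * g = e} =>
      (⟨S.st g.1 * g.1, mul_mem (h.star _ g.2.1) g.2.1, by
        obtain ⟨k, hk, h1, h2⟩ := g.2.2
        refine ⟨k * S.st k, mul_mem hk (h.star k hk), ?_, ?_⟩
        · rw [mul_assoc, ← mul_assoc g.1, h1, h.left _ (h.star k hk), ← st_mul, h2, h.symm]
        · rw [mul_assoc, ← mul_assoc (S.st k), ← st_mul, h1, h.symm, h.left _ g.2.1, h2]⟩ :
        {g // g ∈ J ∧ ∃ k ∈ J, g * k = e ∧ k * g = e})) (by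
    rintro ⟨g, hg, k, hk, h1, h2⟩ ⟨g', hg', hk'⟩ h3
    have h4 : S.st g * g = S.st g' * g' := congrArg Subtype.val h3
    have h5 := hn _ (mul_mem hg' hk) (by
      rw [st_mul, mul_assoc, ← mul_assoc (S.st g'), ← h4, ← mul_assoc, ← mul_assoc, ← st_mul,
        mul_assoc, h1, h.symm, h.toLoc.idem])
    exact Subtype.ext (by
      show g = g'
      rw [← h.right g' hg', ← h2, ← mul_assoc, h5, h.left g hg]))
  have h1 : ∀ g ∈ J, ∀ k ∈ J, g * k = e → k * g = e → S.st g = g := fun g hg k hk h1 h2 => by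
    obtain ⟨t, ht⟩ := hs ⟨g, hg, k, hk, h1, h2⟩
    rw [← show S.st t.1 * t.1 = g from congrArg Subtype.val ht, st_mul, st_st]
  have h2 : ∀ a ∈ J, a * a = 0 → (e + a) * (e - a) = e ∧ (e - a) * (e + a) = e := fun a ha h2 => by
    simp only [add_mul, mul_sub, sub_mul, mul_add, h.left a ha, h.right a ha, h.toLoc.idem, h2]
    constructor <;> abel
  obtain ⟨m, u, -, hu⟩ := h.exists_mu
  obtain ⟨i⟩ := hu.toMU0.nonempty h.ne
  by_cases h3 : ∀ j, j = i
  · have := Unique.mk ⟨i⟩ h3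
    refine hc ?_
    have h4 := hu.sum
    rw [Fintype.sum_unique] at h4
    rw [hu.eq_sum hx, Fintype.sum_unique, Fintype.sum_unique, h4, hu.toMU0.coef_e]
    exact hu.coef_mem hx _ _
  push Not at h3
  obtain ⟨j, h3⟩ := h3
  have a1 := h2 _ (hu.mem i j) (by rw [hu.mul, if_neg h3])
  have a2 := h2 _ (hu.mem j i) (by rw [hu.mul, if_neg h3.symm])
  have m1 := add_mem h.mem (hu.mem i j)
  have m2 := add_mem h.mem (hu.mem j i)
  have n1 := sub_mem h.mem (hu.mem i j)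
  have n2 := sub_mem h.mem (hu.mem j i)
  have h4 := h1 _ (mul_mem m1 m2) _ (mul_mem n2 n1)
    (by rw [mul_assoc, ← mul_assoc (e + u j i), a2.1, h.left _ n1, a1.1])
    (by rw [mul_assoc, ← mul_assoc (e - u i j), a1.2, h.left _ m2, a2.2])
  rw [st_mul, h1 _ m1 _ n1 a1.1 a1.2, h1 _ m2 _ n2 a2.1 a2.2] at h4
  have h5 := congrArg (fun t => u i i * t * u i i) h4
  simp only [add_mul, mul_add, hu.toMU0.left, hu.toMU0.right, hu.mul, if_true, if_neg h3,
    if_neg h3.symm, zero_mul, add_zero, zero_add, h.toLoc.idem, left_eq_add] at h5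
  exact h.ne (h.toLoc.idem.symm.trans (hu.toMU0.eq_zero_of_mul (i := i) (j := i)
    (fun a b => by rw [hu.toMU0.left, hu.toMU0.right]) (by rw [h5, mul_zero])))

end FS

end Vale.Agent.P183NK
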