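import Vale.Agent.P183RT.RT4
import Mathlib.LinearAlgebra.Matrix.Charpoly.Basic
import Mathlib.LinearAlgebra.Matrix.Charpoly.Coeff
import Mathlib.RingTheory.IntegralDomain

/-!
Ring toolkit, part 5: inner automorphisms, automorphisms of scalars, bounds.
-/

namespace Vale.Agent.P183NK

open Subgroup Vale.Agent.P183A

open Polynomial in
/-- Commuting roots of a monic polynomial with invertible differences. -/
theorem roots_le {R A : Type} [CommRing R] [Ring A] [Algebra R A] [Nontrivial A] {χ : R[X]}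
    (hm : χ.Monic) (T : Set A) (hT : ∀ y ∈ T, aeval y χ = 0)
    (hc : ∀ y ∈ T, ∀ y' ∈ T, y * y' = y' * y) (hd : ∀ y ∈ T, ∀ y' ∈ T, y ≠ y' → IsUnit (y - y')) :
    T.ncard ≤ χ.natDegree := by
  let C := Subalgebra.centralizer R (Set.centralizer T)
  have h1 : ∀ y ∈ T, y ∈ C := fun y hy t ht => (ht y hy).symm
  let _ : CommRing C := { (inferInstance : Ring C) with
    mul_comm := fun a b => Subtype.ext (b.2 _ fun t ht => a.2 t fun s hs => hc s hs t ht) }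
  obtain ⟨M, hM⟩ := Ideal.exists_maximal C
  let φ : C →ₐ[R] C ⧸ M := Ideal.Quotient.mkₐ R M
  classical
  let ψ : A → C ⧸ M := fun y => if hy : y ∈ T then φ ⟨y, h1 y hy⟩ else 0
  have h2 := hm.map (algebraMap R (C ⧸ M))
  rw [← hm.natDegree_map (algebraMap R (C ⧸ M))]
  refine le_trans ?_ (((Multiset.toFinset_card_le _).trans (card_roots' _)))
  rw [← Set.ncard_coe_finset]
  refine Set.ncard_le_ncard_of_injOn ψ (fun y hy => ?_) fun y hy y' hy' h3 => ?_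
  · simp only [ψ, dif_pos hy, Finset.mem_coe, Multiset.mem_toFinset, mem_roots h2.ne_zero,
      IsRoot.def, eval_map_algebraMap, aeval_algHom_apply]
    rw [show aeval (⟨y, h1 y hy⟩ : C) χ = 0 from Subtype.ext (by
      rw [aeval_subalgebra_coe]; exact hT y hy), map_zero]
  · by_contra hne
    obtain ⟨d, hd⟩ := hd y hy y' hy' hne
    simp only [ψ, dif_pos hy, dif_pos hy'] at h3
    have h4 : (d⁻¹).1 ∈ C := fun t ht => by
      rw [Units.eq_inv_mul_iff_mul_eq, ← mul_assoc, Units.mul_inv_eq_iff_eq_mul, hd, sub_mul,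
        mul_sub, ht y hy, ht y' hy']
    refine hM.ne_top (Ideal.eq_top_of_isUnit_mem _ (Ideal.Quotient.eq.1 h3)
      (IsUnit.of_mul_eq_one ⟨_, h4⟩ (Subtype.ext ?_)))
    exact (congrArg (· * (d⁻¹).1) hd).symm.trans d.mul_inv

namespace FS

variable {p : ℕ} [Fact p.Prime] {V : Type} [AddCommGroup V] [Module (ZMod p) V] {S : FS p V}
  {J J' R D P Z : S.NR} {e e' w η x : S.E} {m m' : ℕ}
  {ι : Type} [Fintype ι] [DecidableEq ι] {u : ι → ι → S.E}

theorem MU.eq_zero (h : S.MU J e u) (hx : x ∈ J) (i : ι) (h0 : ∀ k, x * u k i = 0) : x = 0 := by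
  rw [← h.un.right x hx, ← h.sum, Finset.mul_sum]
  exact Finset.sum_eq_zero fun k _ => by rw [← h.toMU0.mul_same k i k, ← mul_assoc, h0, zero_mul]

theorem MU0.col_zero (h : S.MU0 e u) {i : ι} (h1 : e * x = x) (h2 : x * u i i = x)
    (h0 : ∀ a, S.coef u x a i = 0) : x = 0 := by
  rw [← h2, ← h1, ← h.sum, Finset.sum_mul, Finset.sum_mul]
  exact Finset.sum_eq_zero fun a _ => by rw [← h.coef_mul_u, h0, zero_mul]

omit [DecidableEq ι] in
theorem coef_sub (x y : S.E) (i j : ι) :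
    S.coef u (x - y) i j = S.coef u x i j - S.coef u y i j := by
  simp only [coef, mul_sub, sub_mul, Finset.sum_sub_distrib]

/-- The elements `y` of `J` with `f y = y = y g`. -/
def hom (S : FS p V) (J : S.NR) (f g : S.E) : AddSubgroup S.E where
  carrier := {y | y ∈ J ∧ f * y = y ∧ y * g = y}
  add_mem' := fun ha hb => ⟨add_mem ha.1 hb.1, by rw [mul_add, ha.2.1, hb.2.1], by
    rw [add_mul, ha.2.2, hb.2.2]⟩
  zero_mem' := ⟨zero_mem _, mul_zero _, zero_mul _⟩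
  neg_mem' := fun ha => ⟨neg_mem ha.1, by rw [mul_neg, ha.2.1], by rw [neg_mul, ha.2.2]⟩

theorem Prim.idem_cases (h : S.Prim D η) (hc : ∀ x ∈ D, ∀ y ∈ D, x * y = y * x) (hx : x ∈ D)
    (hi : x * x = x) : x * η = 0 ∨ x * η = η := by
  refine or_iff_not_imp_left.2 fun h0 => ?_
  obtain ⟨y, hy, h1⟩ := h.inv x hx h0
  rw [← h1, ← mul_assoc, ← mul_assoc, hc x hx y hy, mul_assoc y, hi]

variable [Finite V]

theorem MU.link {f : ι → ι → S.E} (h : S.Simp J e) (hu : S.MU J e u) (hf : S.MU J e f) :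
    ∃ a ∈ J, ∃ b ∈ J, a * b = e ∧ b * a = e ∧ ∀ i j, f i j = a * u i j * b := by
  obtain ⟨o⟩ := hu.toMU0.nonempty h.ne
  obtain ⟨A, ⟨hA, a1, a2⟩, hfree⟩ := exists_free (S.ctr J e) h.psc.comm h.psc.red
    (S.hom J (f o o) (u o o))
    (fun z hz v hv => ⟨mul_mem hz.1 hv.1, by
      rw [smul_eq_mul, ← mul_assoc, ← ctr_comm hz (hf.mem o o), mul_assoc, hv.2.1], by
      rw [smul_eq_mul, mul_assoc, hv.2.2]⟩)
    fun z hz h0 => by
      rw [← h.right z hz.1]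
      refine hf.toMU0.eq_zero_of_mul (fun i j => ctr_comm hz (hf.mem i j)) (i := o) (j := o)
        (hu.eq_zero (mul_mem hz.1 (hf.mem o o)) o fun k => ?_)
      rw [mul_assoc]
      exact h0 _ ⟨mul_mem (hf.mem o o) (hu.mem k o), by rw [← mul_assoc, hf.toMU0.mul_same], by
        rw [mul_assoc, hu.toMU0.mul_same]⟩
  obtain ⟨y, hy, h1⟩ := h.sp.regular h.toLoc.un hA
  have key : ∀ c ∈ S.ctr J e, c * A = A → c = e := fun c hc h2 => sub_eq_zero.1
    (hfree _ (sub_mem hc h.psc.mem) (by rw [smul_eq_mul, sub_mul, h2, h.left A hA, sub_self]))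
  have b1 : A * y * f o o = f o o := by
    have h2 := hf.toMU0.coef_mul_u (A * y) o o o o
    rw [← mul_assoc, a1] at h2
    rw [← h2, key _ (hf.coef_mem (mul_mem hA hy) o o) (by
      rw [← a1, ← mul_assoc, a1, h2, mul_assoc, a1, h1]), hf.toMU0.left]
  have b2 : u o o * y * A = u o o := by
    have h2 := hu.toMU0.coef_mul_u (y * A) o o o o
    have h3 := hu.coef_mem (mul_mem hy hA) o o
    rw [mul_assoc, mul_assoc, a2, ← mul_assoc] at h2
    rw [← h2, key _ h3 (by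
      rw [ctr_comm h3 hA, ← a2, mul_assoc, a2, ← ctr_comm h3 (hu.mem o o), h2, ← mul_assoc,
        ← mul_assoc, a2, h1]), hu.toMU0.left]
  have c1 : ∀ i j, (∑ k, f k o * A * u o k) * u i j = f i o * A * u o j := fun i j => by
    simp only [Finset.sum_mul, mul_assoc, hu.mul, mul_ite, mul_zero, Finset.sum_ite_eq',
      Finset.mem_univ, if_true]
  have c2 : ∀ i j, u i j * ∑ k, u k o * y * f o k = u i o * y * f o j := fun i j => by
    simp only [Finset.mul_sum, ← mul_assoc, hu.mul, ite_mul, zero_mul, Finset.sum_ite_eq,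
      Finset.mem_univ, if_true]
  have c3 : ∀ i j, (∑ k, f k o * A * u o k) * u i j * ∑ k, u k o * y * f o k = f i j :=
    fun i j => by
      rw [c1, mul_assoc, c2, ← mul_assoc, ← mul_assoc, mul_assoc _ A, a2, ← hf.toMU0.mul_same o o j,
        ← mul_assoc, mul_assoc _ A, mul_assoc (f i o), b1, hf.toMU0.mul_same, hf.toMU0.mul_same]
  have hb : ∑ k, u k o * y * f o k ∈ J :=
    sum_mem fun k _ => mul_mem (mul_mem (hu.mem _ _) hy) (hf.mem _ _)
  refine ⟨_, sum_mem fun k _ => mul_mem (mul_mem (hf.mem _ _) hA) (hu.mem _ _), _, hb, ?_, ?_,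
    fun i j => (c3 i j).symm⟩
  · have := Finset.sum_congr (rfl : Finset.univ = _) fun i _ => c3 i i
    rwa [← Finset.sum_mul, ← Finset.mul_sum, hu.sum, hf.sum, mul_assoc, h.left _ hb] at this
  · rw [Finset.sum_mul, ← hu.sum]
    refine Finset.sum_congr rfl fun k _ => ?_
    simp only [Finset.mul_sum, ← mul_assoc]
    simp only [mul_assoc _ (f o k), hf.mul, mul_ite, mul_zero, ite_mul, zero_mul, Finset.sum_ite_eq,
      Finset.mem_univ, if_true]
    rw [mul_assoc _ _ A, a1, ← hu.toMU0.mul_same k o o, mul_assoc _ _ y, mul_assoc _ _ A, b2,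
      hu.toMU0.mul_same, hu.toMU0.mul_same]

/-- Skolem-Noether -/
theorem Simp.skolem (h : S.Simp J e) (φ : S.E → S.E) (hm : ∀ x ∈ J, φ x ∈ J)
    (ha : ∀ x ∈ J, ∀ y ∈ J, φ (x + y) = φ x + φ y) (hμ : ∀ x ∈ J, ∀ y ∈ J, φ (x * y) = φ x * φ y)
    (hz : ∀ z ∈ S.ctr J e, φ z = z) :
    ∃ a ∈ J, ∃ b ∈ J, a * b = e ∧ b * a = e ∧ ∀ x ∈ J, φ x = a * x * b := by
  obtain ⟨m, u, -, hu⟩ := h.exists_mu
  have hs : ∀ (s : Finset (Fin m)) (g : Fin m → S.E), (∀ i, g i ∈ J) →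
      φ (∑ i ∈ s, g i) = ∑ i ∈ s, φ (g i) := fun s g hg => by
    induction s using Finset.induction_on with
    | empty => simpa using hz 0 (zero_mem _)
    | insert a s hs ih =>
      rw [Finset.sum_insert hs, Finset.sum_insert hs, ha _ (hg a) _ (sum_mem fun i _ => hg i), ih]
  obtain ⟨a, h1, b, h2, h3, h4, h5⟩ := hu.link h (h.mu_of_mu0 (u := fun i j => φ (u i j)) hu.deg
    ⟨fun i j k l => by
      rw [← hμ _ (hu.mem _ _) _ (hu.mem _ _), hu.mul]
      split_ifs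
      exacts [rfl, hz 0 (zero_mem _)], by
      rw [← hs _ _ fun i => hu.mem i i, hu.sum, hz e h.psc.mem]⟩ fun i j => hm _ (hu.mem i j))
  refine ⟨a, h1, b, h2, h3, h4, fun x hx => ?_⟩
  obtain ⟨z, h6, rfl⟩ := hu.span x hx
  rw [hs _ _ fun i => sum_mem fun j _ => mul_mem (h6 i j).1 (hu.mem i j), Finset.mul_sum,
    Finset.sum_mul]
  refine Finset.sum_congr rfl fun i _ => ?_
  rw [hs _ _ fun j => mul_mem (h6 i j).1 (hu.mem i j), Finset.mul_sum, Finset.sum_mul]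
  refine Finset.sum_congr rfl fun j _ => ?_
  rw [hμ _ (h6 i j).1 _ (hu.mem i j), hz _ (h6 i j), h5 i j, ← mul_assoc, ← mul_assoc,
    ctr_comm (h6 i j) h1, mul_assoc a]

theorem Simp.skolem_conj (h : S.Simp J e) {g : S.Eˣ} (hm : ∀ x ∈ J, g.1 * x * g⁻¹.1 ∈ J)
    (hz : ∀ z ∈ S.ctr J e, g.1 * z = z * g.1) :
    ∃ a ∈ J, ∃ b ∈ J, a * b = e ∧ b * a = e ∧ ∀ x ∈ J, g.1 * x * g⁻¹.1 = a * x * b :=
  h.skolem (fun x => g.1 * x * g⁻¹.1) hm (fun x _ y _ => by rw [mul_add, add_mul])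
    (fun x _ y _ => by simp [mul_assoc]) fun z h1 => by rw [hz z h1, Units.mul_inv_cancel_right]

/-- The multiplicative group of a finite field is cyclic. -/
theorem exists_gen (hu : S.Un D e) (hc : ∀ x ∈ D, ∀ y ∈ D, x * y = y * x)
    (hi : ∀ x ∈ D, x ≠ 0 → ∃ y ∈ D, x * y = e) (h0 : e ≠ 0) :
    ∃ γ ∈ D, γ ≠ 0 ∧ ∀ z ∈ D, z ≠ 0 → ∃ n, z = γ ^ (n + 1) := by
  have hF : IsField (UR hu) := ⟨⟨1, 0, fun h1 => h0 (congrArg UR.val h1)⟩,
    fun a b => UR.ext (hc _ a.mem _ b.mem), fun {a} ha => by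
      obtain ⟨y, hy, h1⟩ := hi _ a.mem fun h1 => ha (UR.ext h1)
      exact ⟨UR.mk hu y hy, UR.ext h1⟩⟩
  let _ := hF.toField
  obtain ⟨γ, hγ⟩ := IsCyclic.exists_monoid_generator (α := (UR hu)ˣ)
  have h1 : ∀ (a : UR hu) (n : ℕ), (a ^ (n + 1)).val = a.val ^ (n + 1) := fun a n => by
    induction n with
    | zero => rw [zero_add, pow_one, pow_one]
    | succ n ih => rw [pow_succ, UR.val_mul, ih, ← pow_succ]
  refine ⟨γ.1.val, γ.1.mem, fun h2 => γ.ne_zero (UR.ext h2), fun z hz h2 => ?_⟩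
  obtain ⟨n, hn⟩ := hγ (Units.mk0 (UR.mk hu z hz) (fun h3 => h2 (congrArg UR.val h3)) * γ⁻¹)
  refine ⟨n, ?_⟩
  rw [← h1, ← Units.val_pow_eq_pow_val, pow_succ, eq_mul_inv_iff_mul_eq.1 hn]
  rfl

theorem conj_comm (hu : S.Un D e) (hc : ∀ x ∈ D, ∀ y ∈ D, x * y = y * x)
    (hi : ∀ x ∈ D, x ≠ 0 → ∃ y ∈ D, x * y = e) (h0 : e ≠ 0) {g k : S.Eˣ}
    (hg : ∀ x ∈ D, g.1 * x * g⁻¹.1 ∈ D) (hk : ∀ x ∈ D, k.1 * x * k⁻¹.1 ∈ D) (hx : x ∈ D) :
    g.1 * (k.1 * x * k⁻¹.1) * g⁻¹.1 = k.1 * (g.1 * x * g⁻¹.1) * k⁻¹.1 := by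
  obtain ⟨γ, h1, h2, h3⟩ := exists_gen hu hc hi h0
  by_cases h4 : x = 0
  · simp [h4]
  obtain ⟨n, rfl⟩ := h3 x hx h4
  obtain ⟨a, ha⟩ := h3 _ (hg γ h1) (by simpa using h2)
  obtain ⟨b, hb⟩ := h3 _ (hk γ h1) (by simpa using h2)
  simp only [← Units.conj_pow, ha, hb]
  simp only [← pow_mul]
  congr 1
  ring

/-- the derived group of a group of automorphisms of scalars acts trivially -/
theorem PSc.comm_cent (h : S.PSc D e) {X : Subgroup S.Eˣ} (hn : S.NmR X D)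
    (hs : ∀ g ∈ X, ∀ x ∈ D, S.st (g.1 * x * g⁻¹.1) = g.1 * S.st x * g⁻¹.1) :
    ∀ g ∈ ⁅X, X⁆, ∀ z ∈ D, g.1 * z = z * g.1 := by
  have key : ∀ g ∈ X, ∀ k ∈ X, ∀ x ∈ D,
      g.1 * (k.1 * x * k⁻¹.1) * g⁻¹.1 = k.1 * (g.1 * x * g⁻¹.1) * k⁻¹.1 := by
    intro g hg k hk x hx
    obtain ⟨η, h1, h2, rfl | ⟨h3, h4⟩⟩ := h.exists_prim
    · refine conj_comm h.toLoc.un h.comm (fun z hz h0 => ?_) h.ne (hn g hg) (hn k hk) hx
      obtain ⟨y, hy, h5⟩ := h1.inv z hz (by rwa [h.right z hz])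
      exact ⟨y, hy, by rw [← h5, h.right _ (mul_mem hy hz), h.comm z hz y hy]⟩
    let F : S.NR :=
      { carrier := {z | z ∈ D ∧ S.st z = z}
        add_mem' := fun ha hb => ⟨add_mem ha.1 hb.1, by rw [st_add, ha.2, hb.2]⟩
        zero_mem' := ⟨zero_mem _, S.st_zero⟩
        mul_mem' := fun ha hb => ⟨mul_mem ha.1 hb.1, by rw [st_mul, ha.2, hb.2, h.comm _ ha.1 _ hb.1]⟩
        neg_mem' := fun ha => ⟨neg_mem ha.1, by rw [st_neg, ha.2]⟩ }
    have hF : ∀ z ∈ D, g.1 * (k.1 * (z + S.st z) * k⁻¹.1) * g⁻¹.1 =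
        k.1 * (g.1 * (z + S.st z) * g⁻¹.1) * k⁻¹.1 := fun z hz =>
      conj_comm (D := F) ⟨⟨h.mem, h.symm⟩, fun y hy => h.left y hy.1, fun y hy => h.right y hy.1⟩
        (fun a ha b hb => h.comm a ha.1 b hb.1) (fun a ha h0 => by
          obtain ⟨y, hy, h5⟩ := h.inv a ha.1 ha.2 h0
          have h6 := congrArg S.st h5
          rw [st_mul, ha.2, h.symm] at h6
          exact ⟨y, ⟨hy, by
            rw [← h.right _ (h.star y hy), ← h5, ← mul_assoc, h6, h.left y hy]⟩, h5⟩) h.ne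
        (fun a ha => ⟨hn g hg a ha.1, by rw [hs g hg a ha.1, ha.2]⟩)
        (fun a ha => ⟨hn k hk a ha.1, by rw [hs k hk a ha.1, ha.2]⟩)
        ⟨add_mem hz (h.star z hz), by rw [st_add, st_st, add_comm]⟩
    have h5 : ∀ g ∈ X, g.1 * η * g⁻¹.1 = η ∨ g.1 * η * g⁻¹.1 = S.st η := fun g hg => by
      have a1 := hn g hg η h1.mem
      have a2 : g.1 * η * g⁻¹.1 * (g.1 * η * g⁻¹.1) = g.1 * η * g⁻¹.1 := by
        rw [← conj_mul, h1.idem]
      have a3 := h.right _ a1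
      rw [← h3, mul_add] at a3
      rcases h1.idem_cases h.comm a1 a2 with a4 | a4 <;>
        rcases h2.idem_cases h.comm a1 a2 with a5 | a5 <;> rw [a4, a5] at a3
      · exact absurd (by simpa using a3.symm) h1.ne
      · exact Or.inr (by rw [← a3, zero_add])
      · exact Or.inl (by rw [← a3, add_zero])
      · have a6 := congrArg (fun t => g.1 * t * g⁻¹.1) h4
        simp only [conj_mul, ← hs g hg η h1.mem, ← a3, h3, h.symm, h.toLoc.idem, mul_zero,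
          zero_mul] at a6
        exact absurd a6 h.ne
    have h6 : g.1 * (k.1 * η * k⁻¹.1) * g⁻¹.1 = k.1 * (g.1 * η * g⁻¹.1) * k⁻¹.1 := by
      rcases h5 g hg with a1 | a1 <;> rcases h5 k hk with a2 | a2 <;>
        simp only [a1, a2, ← hs g hg η h1.mem, ← hs k hk η h1.mem]
    have h7 := congrArg S.st h6
    rw [hs g hg _ (hn k hk η h1.mem), hs k hk _ (hn g hg η h1.mem), hs g hg η h1.mem,
      hs k hk η h1.mem] at h7
    have h8 : x = (x * η + S.st (x * η)) * η + (x * S.st η + S.st (x * S.st η)) * S.st η := by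
      rw [add_mul, add_mul, st_mul, st_mul, st_st, mul_assoc, h1.idem, mul_assoc x, h2.idem,
        h.comm _ h2.mem _ (h.star x hx), h.comm _ h1.mem _ (h.star x hx), mul_assoc, mul_assoc,
        h4, h.comm _ h2.mem _ h1.mem, h4, mul_zero, add_zero, add_zero, ← mul_add, h3,
        h.right x hx]
    have h9 : ∀ (g k : S.Eˣ) (a b c d : S.E), g.1 * (k.1 * (a * b + c * d) * k⁻¹.1) * g⁻¹.1 =
        g.1 * (k.1 * a * k⁻¹.1) * g⁻¹.1 * (g.1 * (k.1 * b * k⁻¹.1) * g⁻¹.1) +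
        g.1 * (k.1 * c * k⁻¹.1) * g⁻¹.1 * (g.1 * (k.1 * d * k⁻¹.1) * g⁻¹.1) :=
      fun g k a b c d => by simp [mul_assoc, mul_add, add_mul]
    rw [h8, h9, h9, hF _ (mul_mem hx h1.mem), hF _ (mul_mem hx h2.mem), h6, h7]
  intro g hg
  let K : Subgroup S.Eˣ :=
    { carrier := {g | ∀ z ∈ D, g.1 * z = z * g.1}
      mul_mem' := fun {a b} ha hb z hz => by
        rw [Units.val_mul, mul_assoc, hb z hz, ← mul_assoc, ha z hz, mul_assoc]
      one_mem' := fun z _ => by simp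
      inv_mem' := fun {a} ha z hz => by
        rw [Units.inv_mul_eq_iff_eq_mul, ← mul_assoc, ha z hz, Units.mul_inv_cancel_right] }
  refine (commutator_le (H₃ := K)).2 (fun g hg k hk z hz => ?_) hg
  have := congrArg (fun t => g.1 * k.1 * t * g⁻¹.1 * k⁻¹.1)
    (key _ (inv_mem hg) _ (inv_mem hk) z hz)
  simpa [commutatorElement_def, mul_assoc] using this

/-! bounds -/

theorem MU.orth_card (h : S.Simp J e) (hu : S.MU J e u) (hη : S.Prim (S.ctr J e) η) {κ : Type}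
    [Fintype κ] (f : κ → S.E) (hf : ∀ i, f i ∈ J ∧ η * f i ≠ 0 ∧ f i * f i = f i)
    (ho : ∀ i j, i ≠ j → f i * f j = 0) : Fintype.card κ ≤ Fintype.card ι := by
  obtain ⟨o⟩ := hu.toMU0.nonempty h.ne
  have h1 : ∀ i, ∃ k, η * f i * u k o ≠ 0 := fun i => by
    by_contra hn
    push Not at hn
    exact (hf i).2.1 (hu.eq_zero (mul_mem hη.mem.1 (hf i).1) o hn)
  choose k hk using h1
  let W := S.cor (S.ctr J e) η
  have hW : 2 ≤ Nat.card W := by
    have : Nontrivial W := ⟨⟨η, (un_cor hη.mem hη.idem).mem⟩, 0, fun e1 =>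
      hη.ne (congrArg Subtype.val e1)⟩
    exact Finite.one_lt_card
  have hm : ∀ z : κ → W, ∑ i, (z i).1 * (f i * u (k i) o) ∈ J := fun z =>
    sum_mem fun i _ => mul_mem (z i).2.1.1 (mul_mem (hf i).1 (hu.mem _ _))
  have h2 : ∀ (z : κ → W) (a : ι), η * S.coef u (∑ i, (z i).1 * (f i * u (k i) o)) a o =
      S.coef u (∑ i, (z i).1 * (f i * u (k i) o)) a o := fun z a => by
    rw [← MU0.coef_smul fun i j => ctr_comm hη.mem (hu.mem i j), Finset.mul_sum]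
    simp only [← mul_assoc, (mem_cor.1 (z _).2).2.1]
  have h3 := Nat.card_le_card_of_injective (fun (z : κ → W) (a : ι) =>
    (⟨_, mem_cor.2 ⟨hu.coef_mem (hm z) a o, h2 z a, by
      rw [← ctr_comm hη.mem (hu.coef_mem (hm z) a o).1, h2]⟩⟩ : W)) fun z z' hz => by
    have h4 := hu.toMU0.col_zero (i := o) (h.left _ (sub_mem (hm z) (hm z')))
      (by simp only [sub_mul, Finset.sum_mul, mul_assoc, hu.toMU0.mul_same])
      fun a => by rw [coef_sub, sub_eq_zero]; exact congrArg Subtype.val (congrFun hz a)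
    funext i
    by_contra hne
    have h5 := sub_mem (z i).2 (z' i).2
    obtain ⟨t, ht, h6⟩ := hη.inv _ h5.1 (by
      rw [(mem_cor.1 h5).2.2, sub_ne_zero]; exact fun h6 => hne (Subtype.ext h6))
    have h7 : ∀ z : κ → W, f i * ∑ j, (z j).1 * (f j * u (k j) o) = (z i).1 * (f i * u (k i) o) :=
      fun z => by
        rw [Finset.mul_sum, Finset.sum_eq_single i (fun j _ hj => by
          rw [← mul_assoc, ← ctr_comm (z j).2.1 (hf i).1, mul_assoc, ← mul_assoc (f i),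
            ho i j hj.symm, zero_mul, mul_zero]) (by simp), ← mul_assoc,
          ← ctr_comm (z i).2.1 (hf i).1, mul_assoc, ← mul_assoc (f i), (hf i).2.2]
    have h8 := congrArg (f i * ·) h4
    simp only [mul_sub, h7, mul_zero, ← sub_mul] at h8
    refine hk i ?_
    rw [← h6, mul_assoc t, (mem_cor.1 h5).2.2, mul_assoc, mul_assoc, h8, mul_zero]
  rw [Nat.card_fun, Nat.card_fun, Nat.card_eq_fintype_card (α := κ),
    Nat.card_eq_fintype_card (α := ι)] at h3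
  exact (Nat.pow_le_pow_iff_right hW).1 h3

theorem Simp.orth_prim (h : S.Simp J e) (h1 : S.Deg J e m) (hη : S.Prim (S.ctr J e) η)
    (T : Finset S.E) (hT : ∀ f ∈ T, f ∈ J ∧ η * f ≠ 0 ∧ f * f = f)
    (ho : ∀ f ∈ T, ∀ f' ∈ T, f ≠ f' → f * f' = 0) : T.card ≤ m := by
  obtain ⟨u, hu⟩ := h.mu_of_deg h1
  simpa using hu.orth_card h hη (fun f : T => f.1) (fun f => hT f.1 f.2)
    fun f g hfg => ho f.1 f.2 g.1 g.2 fun h2 => hfg (Subtype.ext h2)

omit [Finite V] in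
theorem Simp.exists_prim (h : S.Simp J e) : ∃ η, S.Prim (S.ctr J e) η ∧
    S.Prim (S.ctr J e) (S.st η) ∧ (∀ x ∈ J, η * x = 0 → S.st η * x = 0 → x = 0) ∧
      ∀ x ∈ J, S.st x = x → η * x = 0 → x = 0 := by
  obtain ⟨η, h1, h2, h3⟩ := h.psc.exists_prim
  have h4 : ∀ x ∈ J, η * x = 0 → S.st η * x = 0 → x = 0 := fun x hx a1 a2 => by
    rcases h3 with rfl | ⟨h3, -⟩
    · rw [← a1, h.left x hx]
    · rw [← h.left x hx, ← h3, add_mul, a1, a2, add_zero]
  refine ⟨η, h1, h2, h4, fun x hx a1 a2 => h4 x hx a2 ?_⟩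
  rw [ctr_comm h2.mem hx, ← a1, ← st_mul, a2, st_zero]

theorem Simp.orth_le (h : S.Simp J e) (h1 : S.Deg J e m) (T : Finset S.E)
    (hT : ∀ f ∈ T, f ∈ J ∧ f ≠ 0 ∧ f * f = f) (ho : ∀ f ∈ T, ∀ f' ∈ T, f ≠ f' → f * f' = 0) :
    T.card ≤ 2 * m := by
  classical
  obtain ⟨η, a1, a2, a3, -⟩ := h.exists_prim
  rw [← Finset.card_filter_add_card_filter_not (s := T) fun f => η * f = 0, two_mul]
  refine add_le_add (h.orth_prim h1 a2 _ (fun f hf => ?_) fun f hf g hg => ?_)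
    (h.orth_prim h1 a1 _ (fun f hf => ?_) fun f hf g hg => ?_)
  · obtain ⟨b1, b2⟩ := Finset.mem_filter.1 hf
    exact ⟨(hT f b1).1, fun b3 => (hT f b1).2.1 (a3 f (hT f b1).1 b2 b3), (hT f b1).2.2⟩
  · exact ho f (Finset.mem_filter.1 hf).1 g (Finset.mem_filter.1 hg).1
  · obtain ⟨b1, b2⟩ := Finset.mem_filter.1 hf
    exact ⟨(hT f b1).1, b2, (hT f b1).2.2⟩
  · exact ho f (Finset.mem_filter.1 hf).1 g (Finset.mem_filter.1 hg).1

theorem Simp.orth_sym_le (h : S.Simp J e) (h1 : S.Deg J e m) (T : Finset S.E)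
    (hT : ∀ f ∈ T, f ∈ J ∧ f ≠ 0 ∧ f * f = f ∧ S.st f = f)
    (ho : ∀ f ∈ T, ∀ f' ∈ T, f ≠ f' → f * f' = 0) : T.card ≤ m := by
  obtain ⟨η, a1, -, -, a4⟩ := h.exists_prim
  exact h.orth_prim h1 a1 T (fun f hf => ⟨(hT f hf).1, fun b => (hT f hf).2.1
    (a4 f (hT f hf).1 (hT f hf).2.2.2 b), (hT f hf).2.2.1⟩) ho

theorem Simp.idem_le (h : S.Simp J e) (h1 : S.Deg J e m) (T : Set S.E)
    (hT : ∀ f ∈ T, f ∈ J ∧ f * f = f) (hc : ∀ f ∈ T, ∀ f' ∈ T, f * f' = f' * f) :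
    T.ncard ≤ 2 ^ (2 * m) := by
  let B : Set S.E := {x | x ∈ J ∧ x * x = x ∧ ∀ y ∈ J, (∀ t ∈ T, t * y = y * t) → x * y = y * x}
  have h2 : ∀ f ∈ B, ∀ g ∈ B, f * g = g * f := fun f hf g hg =>
    hf.2.2 g hg.1 fun t ht => (hg.2.2 t (hT t ht).1 fun s hs => hc s hs t ht).symm
  have hB : Boo B e := ⟨Set.toFinite _,
    ⟨h.mem, h.toLoc.idem, fun y hy _ => by rw [h.left y hy, h.right y hy]⟩, fun _ hf => hf.2.1, h2,
    fun f hf g hg => ⟨mul_mem hf.1 hg.1, by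
      rw [mul_assoc, ← mul_assoc g, ← h2 f hf g hg, mul_assoc, hg.2.1, ← mul_assoc, hf.2.1],
      fun y hy h3 => by rw [mul_assoc, hg.2.2 y hy h3, ← mul_assoc, hf.2.2 y hy h3, mul_assoc]⟩,
    fun f hf => ⟨sub_mem h.mem hf.1, by
      rw [sub_mul, mul_sub, mul_sub, h.toLoc.idem, h.left f hf.1, h.right f hf.1, hf.2.1, sub_self,
        sub_zero], fun y hy h3 => by
      rw [sub_mul, mul_sub, hf.2.2 y hy h3, h.left y hy, h.right y hy]⟩,
    fun f hf => h.left f hf.1⟩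
  obtain ⟨W, h3, h4⟩ := hB.sum_atoms
  refine (Set.ncard_le_ncard (fun t ht => (⟨(hT t ht).1, (hT t ht).2, fun y _ h5 => h5 t ht⟩ :
    t ∈ B)) hB.fin).trans ((hB.ncard_le h3 h4).trans (Nat.pow_le_pow_right two_pos ?_))
  exact h.orth_le h1 W (fun f hf => ⟨((h3 f).1 hf).1.1, ((h3 f).1 hf).2.1, ((h3 f).1 hf).1.2.1⟩)
    fun f hf g hg => hB.orth ((h3 f).1 hf) ((h3 g).1 hg)

theorem Simp.deg_le (h : S.Simp J e) (h1 : S.Deg J e m) (h' : S.Simp J' e') (h2 : S.Deg J' e' m')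
    (hle : J' ≤ J) : m' ≤ m := by
  obtain ⟨η, a1, -, -, a4⟩ := h.exists_prim
  obtain ⟨u, hu⟩ := h.mu_of_deg h1
  obtain ⟨v, hv⟩ := h'.mu_of_deg h2
  simpa using hu.orth_card h a1 (fun i => v i i) (fun i => ⟨hle (hv.mem i i), fun b => h'.ne
    (a4 e' (hle h'.mem) h'.symm (hv.toMU0.eq_zero_of_mul
      (fun a b => ctr_comm a1.mem (hle (hv.mem a b))) b)), hv.toMU0.mul_same i i i⟩)
    fun i j hij => by rw [hv.mul, if_neg hij]

theorem Simp.card_comm_le (h : S.Simp J e) (h1 : S.Deg J e m) (hP : P ≤ J)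
    (hc : ∀ x ∈ P, ∀ y ∈ P, x * y = y * x) (hr : ∀ x ∈ P, x * x = 0 → x = 0) :
    Nat.card P ≤ Nat.card (S.ctr J e) ^ m := by
  obtain ⟨u, hu⟩ := h.mu_of_deg h1
  obtain ⟨o⟩ := hu.toMU0.nonempty h.ne
  obtain ⟨v, ⟨a1, -, a2⟩, hv⟩ := exists_free P hc hr (S.hom J e (u o o))
    (fun x hx v hv => ⟨mul_mem (hP hx) hv.1, h.left _ (mul_mem (hP hx) hv.1), by
      rw [smul_eq_mul, mul_assoc, hv.2.2]⟩)
    fun x hx h0 => hu.eq_zero (hP hx) o fun k =>
      h0 _ ⟨hu.mem k o, hu.toMU0.left k o, hu.toMU0.mul_same k o o⟩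
  have h3 := Nat.card_le_card_of_injective (fun (x : P) (a : Fin m) =>
    (⟨_, hu.coef_mem (mul_mem (hP x.2) a1) a o⟩ : S.ctr J e)) fun x y hxy =>
    Subtype.ext (sub_eq_zero.1 (hv _ (sub_mem x.2 y.2) (hu.toMU0.col_zero (i := o)
      (h.left _ (mul_mem (hP (sub_mem x.2 y.2)) a1)) (by rw [smul_eq_mul, mul_assoc, a2])
      fun a => by
        rw [smul_eq_mul, sub_mul, coef_sub, sub_eq_zero]
        exact congrArg Subtype.val (congrFun hxy a))))
  rwa [Nat.card_fun, Nat.card_fin] at h3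

/-- The matrix of coefficients. -/
def MU.toMat (h : S.MU J e u) : UR h.un →+* Matrix ι ι (UR h.un.ctr) where
  toFun x := Matrix.of fun i j => UR.mk _ _ (h.coef_mem x.mem i j)
  map_one' := Matrix.ext fun i j => UR.ext (by
    rw [Matrix.of_apply, UR.val_mk, UR.val_one, h.toMU0.coef_one, Matrix.one_apply]
    split_ifs <;> rfl)
  map_mul' x y := Matrix.ext fun i j => UR.ext (by
    rw [Matrix.of_apply, UR.val_mk, UR.val_mul, Matrix.mul_apply, UR.val_sum]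
    conv_lhs => rw [← h.un.right _ x.mem, h.toMU0.coef_mul]
    rfl)
  map_zero' := Matrix.ext fun i j => UR.ext (by simp [coef])
  map_add' x y := Matrix.ext fun i j => UR.ext (by
    simp [coef, mul_add, add_mul, Finset.sum_add_distrib])

omit [Finite V] in
theorem MU.toMat_inj (h : S.MU J e u) : Function.Injective h.toMat := fun x y hxy => UR.ext (by
  rw [h.eq_sum x.mem, h.eq_sum y.mem]
  exact Finset.sum_congr rfl fun i _ => Finset.sum_congr rfl fun j _ =>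
    congrArg (fun t : Matrix ι ι (UR h.un.ctr) => (t i j).val * u i j) hxy)

/-- commuting conjugates with invertible differences -/
theorem Simp.conj_le (h : S.Simp J e) (h1 : S.Deg J e m) (hx : x ∈ J) (T : Set S.E)
    (hT : ∀ y ∈ T, ∃ a ∈ J, ∃ b ∈ J, a * b = e ∧ b * a = e ∧ y = a * x * b)
    (hc : ∀ y ∈ T, ∀ y' ∈ T, y * y' = y' * y)
    (hd : ∀ y ∈ T, ∀ y' ∈ T, y ≠ y' → ∃ c ∈ J, (y - y') * c = e) : T.ncard ≤ m := by
  obtain ⟨u, hu⟩ := h.mu_of_deg h1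
  let _ : CommRing (UR hu.un.ctr) := { (inferInstance : Ring (UR hu.un.ctr)) with
    mul_comm := fun a b => UR.ext (ctr_comm a.mem b.mem.1) }
  have : Nontrivial (UR hu.un.ctr) := ⟨1, 0, fun h2 => h.ne (congrArg UR.val h2)⟩
  have := hu.toMU0.nonempty h.ne
  have h2 := roots_le (hu.toMat (UR.mk _ x hx)).charpoly_monic (hu.toMat '' {y | y.val ∈ T})
    (by
      rintro _ ⟨y, hy, rfl⟩
      obtain ⟨a, ha, b, hb, -, h3, h4⟩ := hT _ hy
      have h5 : y = UR.mk _ a ha * UR.mk _ x hx * UR.mk _ b hb := UR.ext h4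
      have h6 : UR.mk hu.un b hb * UR.mk _ a ha = 1 := UR.ext h3
      have h7 : (hu.toMat y).charpoly = (hu.toMat (UR.mk _ x hx)).charpoly := by
        rw [h5, map_mul, Matrix.charpoly_mul_comm, ← map_mul, ← mul_assoc, h6, one_mul]
      rw [← h7, Matrix.aeval_self_charpoly])
    (by
      rintro _ ⟨y, hy, rfl⟩ _ ⟨y', hy', rfl⟩
      rw [← map_mul, ← map_mul, show y * y' = y' * y from UR.ext (hc _ hy _ hy')])
    (by
      rintro _ ⟨y, hy, rfl⟩ _ ⟨y', hy', rfl⟩ hne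
      obtain ⟨c, h3, h4⟩ := hd _ hy _ hy' fun h3 => hne (congrArg _ (UR.ext h3))
      rw [← map_sub]
      exact (IsUnit.of_mul_eq_one (a := y - y') (UR.mk _ c h3) (UR.ext h4)).map _)
  rw [Set.ncard_image_of_injective _ hu.toMat_inj, Matrix.charpoly_natDegree_eq_dim,
    Fintype.card_fin, ← Set.ncard_image_of_injective (f := UR.val) _ fun _ _ => UR.ext] at h2
  refine (Set.ncard_le_ncard (fun y hy => ?_)).trans h2
  obtain ⟨a, ha, b, hb, -, -, h4⟩ := hT _ hy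
  exact ⟨UR.mk _ y (h4 ▸ mul_mem (mul_mem ha hx) hb), hy, rfl⟩

end FS

end Vale.Agent.P183NK
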