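import Vale.Agent.P183RT.Defs

/-!
Ring toolkit: statements (skeleton; the proved file is `P183RT/RT.lean`).
-/

namespace Vale.Agent.P183NK

open Subgroup Vale.Agent.P183A

namespace FS

variable {p : ℕ} [Fact p.Prime] {V : Type} [AddCommGroup V] [Module (ZMod p) V] {S : FS p V}
  [Finite V] {J J' R D P Z : S.NR} {e e' w η x : S.E} {m m' : ℕ}
  {ι : Type} [Fintype ι] [DecidableEq ι] {u : ι → ι → S.E}

/-! semisimple rings -/

theorem SP.exists_idem (hu : S.Un J e) (h : S.SP J) (hR : R ≤ J)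
    (hl : ∀ x ∈ R, ∀ y ∈ J, y * x ∈ R) : ∃ f ∈ R, f * f = f ∧ ∀ x ∈ R, x * f = x := sorry

theorem SP.ideal (hu : S.Un J e) (h : S.SP J) (hR : R ≤ J)
    (hi : ∀ x ∈ R, ∀ y ∈ J, x * y ∈ R ∧ y * x ∈ R) :
    ∃ f ∈ R, f ∈ S.ctr J e ∧ f * f = f ∧ ∀ x ∈ R, f * x = x := sorry

theorem SP.exists_proj (hu : S.Un J e) (h : S.SP J) {U : AddSubgroup V}
    (hU : ∀ v ∈ U, e v = v) (hJ : ∀ x ∈ J, ∀ v ∈ U, x v ∈ U) :
    ∃ f ∈ S.cent J e, f * f = f ∧ ∀ v, v ∈ U ↔ f v = v := sorry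

theorem SP.regular (hu : S.Un J e) (h : S.SP J) (hx : x ∈ J) : ∃ y ∈ J, x * y * x = x := sorry

theorem SP.cent (hu : S.Un J e) (h : S.SP J) : S.SP (S.cent J e) := sorry

theorem SP.cent_cent (hu : S.Un J e) (h : S.SP J) : S.cent (S.cent J e) e = J := sorry

theorem SP.cor (h : S.SP J) (hw : w ∈ J) (hi : w * w = w) : S.SP (S.cor J w) := sorry

theorem sp_of_red (hc : ∀ x ∈ P, ∀ y ∈ P, x * y = y * x) (hr : ∀ x ∈ P, x * x = 0 → x = 0) :
    S.SP P := sorry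

theorem Irr.sp {a : Subgroup S.Eˣ} (h : S.Irr Z a) (hJ : J ≤ S.cent Z 1) (hn : S.NmR a J) :
    S.SP J := sorry

/-! components -/

theorem Simp.sp (h : S.Simp J e) : S.SP J := sorry

theorem Simp.sym_idem (h : S.Simp J e) {f : S.E} (hf : f ∈ S.ctr J e) (hs : S.st f = f)
    (hi : f * f = f) : f = 0 ∨ f = e := sorry

theorem simp_of_sp (hl : S.Loc J e) (h : S.SP J)
    (hi : ∀ f ∈ S.ctr J e, S.st f = f → f * f = f → f = 0 ∨ f = e) : S.Simp J e := sorry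

theorem comps_orth {w' : S.E} (hw : w ∈ S.comps J e) (hw' : w' ∈ S.comps J e) (hne : w ≠ w') :
    w * w' = 0 := sorry

theorem comps_sum (hl : S.Loc J e) :
    ∃ W : Finset S.E, (∀ w, w ∈ W ↔ w ∈ S.comps J e) ∧ ∑ w ∈ W, w = e := sorry

theorem ctr_cor (hu : S.Un J e) (hw : w ∈ S.ctr J e) (hi : w * w = w) :
    S.ctr (S.cor J w) w = S.cor (S.ctr J e) w := sorry

theorem cent_cor (hu : S.Un J e) (hw : w ∈ S.ctr J e) (hi : w * w = w) :
    S.cent (S.cor J w) w = S.cor (S.cent J e) w := sorry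

theorem comps_simp (hl : S.Loc J e) (h : S.SP J) (hw : w ∈ S.comps J e) :
    S.Simp (S.cor J w) w := sorry

theorem simp_of_comps (hl : S.Loc J e) (h : S.SP J) (he : e ∈ S.comps J e) : S.Simp J e := sorry

theorem comps_conj {X : Subgroup S.Eˣ} (hl : S.Loc J e) (hn : S.NmR X J)
    (hs : ∀ g ∈ X, ∀ x ∈ J, S.st (g.1 * x * g⁻¹.1) = g.1 * S.st x * g⁻¹.1) {g : S.Eˣ} (hg : g ∈ X)
    (hw : w ∈ S.comps J e) : g.1 * w * g⁻¹.1 ∈ S.comps J e := sorry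

/-! simple rings with involution -/

theorem Simp.psc (h : S.Simp J e) : S.PSc (S.ctr J e) e := sorry

theorem PSc.scal (h : S.PSc D e) {X : Set S.E}
    (hX : ∀ k ∈ X, S.st k * k = 1 ∧ ∀ v, S.q (k v) = S.q v)
    (hfix : ∀ v, e v = v → (∀ k ∈ X, k v = v) → v = 0) (hc : ∀ k ∈ X, ∀ z ∈ D, k * z = z * k) :
    S.Scal D e := sorry

theorem Simp.scal (h : S.Simp J e) (ht : S.TC J e) : S.Scal (S.ctr J e) e := sorry

theorem PSc.simp (h : S.PSc D e) : S.Simp D e ∧ S.ctr D e = D ∧ S.Deg D e 1 := sorry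

theorem PSc.exists_prim (h : S.PSc D e) : ∃ η, S.Prim D η ∧ S.Prim D (S.st η) ∧
    (η = e ∨ (η + S.st η = e ∧ η * S.st η = 0)) := sorry

theorem PSc.two_le_card (h : S.PSc D e) : 2 ≤ Nat.card D := sorry

theorem Simp.exists_mu (h : S.Simp J e) : 
    ∃ (m : ℕ) (u : Fin m → Fin m → S.E), 0 < m ∧ S.MU J e u := sorry

theorem MU0.coef_comm (h : S.MU0 e u) (x : S.E) (i j k l : ι) :
    S.coef u x i j * u k l = u k l * S.coef u x i j := sorry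

theorem MU0.sum_coef (h : S.MU0 e u) (x : S.E) :
    ∑ i, ∑ j, S.coef u x i j * u i j = e * x * e := sorry

theorem MU.coef_mem (h : S.MU J e u) (hx : x ∈ J) (i j : ι) : S.coef u x i j ∈ S.ctr J e := sorry

theorem MU.deg (h : S.MU J e u) : S.Deg J e (Fintype.card ι) := sorry

/-- a ring generated by scalars and matrix units -/
theorem simp_of_mu0 (hl : S.Loc J e) (hD : S.PSc D e) (hu : S.MU0 e u)
    (hc : ∀ z ∈ D, ∀ i j, z * u i j = u i j * z)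
    (hJ : J = NonUnitalSubring.closure ((D : Set S.E) ∪ {x | ∃ i j, x = u i j})) :
    S.Simp J e ∧ S.ctr J e = D ∧ S.MU J e u := sorry

theorem MU0.card_range (h : S.MU0 e u) (i : ι) :
    Nat.card (LinearMap.range e) = Nat.card (LinearMap.range (u i i)) ^ Fintype.card ι := sorry

theorem Simp.exists_deg (h : S.Simp J e) : ∃ m, 0 < m ∧ S.Deg J e m := sorry

theorem Simp.deg_unique (h : S.Simp J e) (h1 : S.Deg J e m) (h2 : S.Deg J e m') : m = m' := sorry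

theorem Simp.deg_pos (h : S.Simp J e) (h1 : S.Deg J e m) : 0 < m := sorry

theorem Simp.mu_of_deg (h : S.Simp J e) (h1 : S.Deg J e m) :
    ∃ u : Fin m → Fin m → S.E, S.MU J e u := sorry

theorem Simp.mu_of_mu0 (h : S.Simp J e) (h1 : S.Deg J e (Fintype.card ι))
    (hu : S.MU0 e u) (hm : ∀ i j, u i j ∈ J) : S.MU J e u := sorry

theorem Simp.deg_one (h : S.Simp J e) : S.Deg J e 1 ↔ S.ctr J e = J := sorry

theorem Simp.cent (h : S.Simp J e) : S.Simp (S.cent J e) e := sorry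

theorem Simp.cent_cent (h : S.Simp J e) : S.cent (S.cent J e) e = J := sorry

theorem Simp.ctr_cent (h : S.Simp J e) : S.ctr (S.cent J e) e = S.ctr J e := sorry

theorem Simp.rank (h : S.Simp J e) (h1 : S.Deg J e m) (h2 : S.Deg (S.cent J e) e m') :
    S.Rank (S.ctr J e) e (m * m') := sorry

theorem PSc.exists_rank (h : S.PSc D e) : ∃ r, 0 < r ∧ S.Rank D e r := sorry

theorem PSc.bas (h : S.PSc D e) {r : ℕ} (hr : S.Rank D e r) :
    S.Simp (S.cent D e) e ∧ S.ctr (S.cent D e) e = D ∧ S.Deg (S.cent D e) e r := sorry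

/-- a simple ring and its centraliser generate the centraliser of the centre -/
theorem Simp.sup_cent (h : S.Simp J e) : J ⊔ S.cent J e = S.cent (S.ctr J e) e := sorry

/-- the ring generated by two commuting simple rings with the same centre -/
theorem Simp.sup (h : S.Simp J e) (h' : S.Simp J' e) (hc : J' ≤ S.cent J e)
    (hz : S.ctr J e = S.ctr J' e) (h1 : S.Deg J e m) (h2 : S.Deg J' e m') :
    S.Simp (J ⊔ J') e ∧ S.ctr (J ⊔ J') e = S.ctr J e ∧ S.Deg (J ⊔ J') e (m * m') := sorry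

/-- the ring generated by a simple ring and a larger ring of scalars -/
theorem Simp.sup_psc (h : S.Simp J e) (hD : S.PSc D e) (hc : D ≤ S.cent J e)
    (hz : S.ctr J e ≤ D) (h1 : S.Deg J e m) :
    S.Simp (J ⊔ D) e ∧ S.ctr (J ⊔ D) e = D ∧ S.Deg (J ⊔ D) e m := sorry

theorem Simp.cor (h : S.Simp J e) (hw : w ∈ J) (h0 : w ≠ 0) (hs : S.st w = w) (hi : w * w = w) :
    S.Simp (S.cor J w) w ∧ S.ctr (S.cor J w) w = S.cut (S.ctr J e) w := sorry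

theorem Simp.exists_unitary (h : S.Simp J e) (hx : x ∈ J) (hc : x ∉ S.ctr J e) :
    ∃ g ∈ J, S.st g * g = e ∧ g ≠ e := sorry

/-- Skolem-Noether -/
theorem Simp.skolem (h : S.Simp J e) (φ : S.E → S.E) (hm : ∀ x ∈ J, φ x ∈ J)
    (ha : ∀ x ∈ J, ∀ y ∈ J, φ (x + y) = φ x + φ y) (hμ : ∀ x ∈ J, ∀ y ∈ J, φ (x * y) = φ x * φ y)
    (hz : ∀ z ∈ S.ctr J e, φ z = z) :
    ∃ a ∈ J, ∃ b ∈ J, a * b = e ∧ b * a = e ∧ ∀ x ∈ J, φ x = a * x * b := sorry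

theorem Simp.skolem_conj (h : S.Simp J e) {g : S.Eˣ} (hm : ∀ x ∈ J, g.1 * x * g⁻¹.1 ∈ J)
    (hz : ∀ z ∈ S.ctr J e, g.1 * z = z * g.1) :
    ∃ a ∈ J, ∃ b ∈ J, a * b = e ∧ b * a = e ∧ ∀ x ∈ J, g.1 * x * g⁻¹.1 = a * x * b := sorry

/-- the derived group of a group of automorphisms of scalars acts trivially -/
theorem PSc.comm_cent (h : S.PSc D e) {X : Subgroup S.Eˣ} (hn : S.NmR X D)
    (hs : ∀ g ∈ X, ∀ x ∈ D, S.st (g.1 * x * g⁻¹.1) = g.1 * S.st x * g⁻¹.1) :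
    ∀ g ∈ ⁅X, X⁆, ∀ z ∈ D, g.1 * z = z * g.1 := sorry

/-! bounds -/

theorem Simp.orth_le (h : S.Simp J e) (h1 : S.Deg J e m) (T : Finset S.E)
    (hT : ∀ f ∈ T, f ∈ J ∧ f ≠ 0 ∧ f * f = f) (ho : ∀ f ∈ T, ∀ f' ∈ T, f ≠ f' → f * f' = 0) :
    T.card ≤ 2 * m := sorry

theorem Simp.orth_sym_le (h : S.Simp J e) (h1 : S.Deg J e m) (T : Finset S.E)
    (hT : ∀ f ∈ T, f ∈ J ∧ f ≠ 0 ∧ f * f = f ∧ S.st f = f)
    (ho : ∀ f ∈ T, ∀ f' ∈ T, f ≠ f' → f * f' = 0) : T.card ≤ m := sorry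

theorem Simp.idem_le (h : S.Simp J e) (h1 : S.Deg J e m) (T : Set S.E)
    (hT : ∀ f ∈ T, f ∈ J ∧ f * f = f) (hc : ∀ f ∈ T, ∀ f' ∈ T, f * f' = f' * f) :
    T.ncard ≤ 2 ^ (2 * m) := sorry

theorem Simp.deg_le (h : S.Simp J e) (h1 : S.Deg J e m) (h' : S.Simp J' e') (h2 : S.Deg J' e' m')
    (hle : J' ≤ J) : m' ≤ m := sorry

theorem Simp.card_comm_le (h : S.Simp J e) (h1 : S.Deg J e m) (hP : P ≤ J)
    (hc : ∀ x ∈ P, ∀ y ∈ P, x * y = y * x) (hr : ∀ x ∈ P, x * x = 0 → x = 0) :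
    Nat.card P ≤ Nat.card (S.ctr J e) ^ m := sorry

/-- commuting conjugates with invertible differences -/
theorem Simp.conj_le (h : S.Simp J e) (h1 : S.Deg J e m) (hx : x ∈ J) (T : Set S.E)
    (hT : ∀ y ∈ T, ∃ a ∈ J, ∃ b ∈ J, a * b = e ∧ b * a = e ∧ y = a * x * b)
    (hc : ∀ y ∈ T, ∀ y' ∈ T, y * y' = y' * y)
    (hd : ∀ y ∈ T, ∀ y' ∈ T, y ≠ y' → ∃ c ∈ J, (y - y') * c = e) : T.ncard ≤ m := sorry

end FS

end Vale.Agent.P183NK
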